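import Mathlib

/-!
# P075 (Q2): definitions for the dyadic triangular Hilbert transform

`Iv`, `haar`, `term`, `layer`, `norm3` follow the problem statement. The other definitions are the
finite model used in the proof.
-/

noncomputable section

open MeasureTheory Matrix Set

namespace Vale.Agent.P075

/-- The dyadic interval `[2^k n, 2^k (n+1))` of `𝒟_k`. -/
def Iv (k : ℤ) (n : ℕ) : Set ℝ := Ico ((2 : ℝ) ^ k * n) ((2 : ℝ) ^ k * (n + 1))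

/-- The Haar function `h_I = 1_{left half} - 1_{right half}` of `I = Iv k n`. -/
def haar (k : ℤ) (n : ℕ) (x : ℝ) : ℝ :=
  (Ico ((2 : ℝ) ^ k * n) ((2 : ℝ) ^ k * (n + 1 / 2))).indicator (fun _ => (1 : ℝ)) x -
  (Ico ((2 : ℝ) ^ k * (n + 1 / 2)) ((2 : ℝ) ^ k * (n + 1))).indicator (fun _ => (1 : ℝ)) x

/-- `L_I(F_0, F_1, F_2)` for `I = (Iv k n₀, Iv k n₁, Iv k n₂)`. -/
def term (k : ℤ) (n₀ n₁ n₂ : ℕ) (F : Fin 3 → ℝ → ℝ → ℝ) : ℝ :=
  ((2 : ℝ) ^ k)⁻¹ * ∫ x₀ in Iv k n₀, ∫ x₁ in Iv k n₁, ∫ x₂ in Iv k n₂,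
    F 0 x₀ x₁ * F 1 x₁ x₂ * F 2 x₂ x₀ * (haar k n₀ x₀ * haar k n₁ x₁ * haar k n₂ x₂)

/-- The sum of `L_I` over `𝒜_k`, the triples with `n₀ ⊕ n₁ ⊕ n₂ = 0`. -/
def layer (k : ℤ) (F : Fin 3 → ℝ → ℝ → ℝ) : ℝ :=
  ∑' t : {t : ℕ × ℕ × ℕ // Nat.xor (Nat.xor t.1 t.2.1) t.2.2 = 0},
    term k t.1.1 t.1.2.1 t.1.2.2 F

/-- The `L^3([0,∞)^2)` norm. -/
def norm3 (F : ℝ → ℝ → ℝ) : ℝ :=
  (∫ p in Ici (0 : ℝ) ×ˢ Ici (0 : ℝ), |F p.1 p.2| ^ 3) ^ ((1 : ℝ) / 3)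

/-! ### Finite model -/

variable {κ ι : Type*} [Fintype κ] [Fintype ι]

/-- `trace (Z^(3/2))` for a positive semidefinite `Z` (zero otherwise). -/
def tr32 (Z : Matrix ι ι ℝ) : ℝ :=
  by classical exact
    if h : ∃ R : Matrix ι ι ℝ, R.PosSemidef ∧ R * R = Z then
      (h.choose * h.choose * h.choose).trace
    else 0

/-- Gram matrix, on the shared variable, of the stacked operator `[A; Bᵀ]`. -/
def gram (A B : Matrix κ κ ℝ) : Matrix κ κ ℝ := Aᵀ * A + B * Bᵀ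

/-- Normalised parent operator of four normalised children. -/
def par (a : Fin 2 → Fin 2 → Matrix κ κ ℝ) : Matrix (Fin 2 × κ) (Fin 2 × κ) ℝ :=
  Matrix.of fun p q => a p.1 q.1 p.2 q.2 / 2

/-- The Haar sign as a diagonal operator on the parent space. -/
def flipH [DecidableEq κ] : Matrix (Fin 2 × κ) (Fin 2 × κ) ℝ :=
  Matrix.diagonal fun p => if p.1 = 0 then 1 else -1

/-- Increment of `tr32 ∘ gram` from a parent pair to its children pairs on the plane. -/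
def gain (a b : Fin 2 → Fin 2 → Matrix κ κ ℝ) : ℝ :=
  (∑ i, ∑ j, tr32 (gram (a i j) (b j (i + j)))) / 4 - tr32 (gram (par a) (par b))

/-- The block `(n₀, n₁)` of side `2^j` cells of an array, as a normalised operator. -/
def blk (j : ℕ) (A : ℕ → ℕ → ℝ) (n₀ n₁ : ℕ) : Matrix (Fin (2 ^ j)) (Fin (2 ^ j)) ℝ :=
  Matrix.of fun r c => A (2 ^ j * n₀ + r) (2 ^ j * n₁ + c) / 2 ^ j

/-- The Haar sign at scale `j` on a cell offset. -/
def cellSign (j : ℕ) (r : ℕ) : ℝ := if 2 * r < 2 ^ j then 1 else -1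

/-- The scale-`j` part of the dyadic form on arrays of unit cells supported in `[0,2^N)^2`. -/
def dlayer (N j : ℕ) (A : Fin 3 → ℕ → ℕ → ℝ) : ℝ :=
  ((2 : ℝ) ^ j)⁻¹ * ∑ n₀ ∈ Finset.range (2 ^ (N - j)), ∑ n₁ ∈ Finset.range (2 ^ (N - j)),
    ∑ r : Fin (2 ^ j), ∑ s : Fin (2 ^ j), ∑ t : Fin (2 ^ j),
      A 0 (2 ^ j * n₀ + r) (2 ^ j * n₁ + s) * A 1 (2 ^ j * n₁ + s) (2 ^ j * Nat.xor n₀ n₁ + t) *
        A 2 (2 ^ j * Nat.xor n₀ n₁ + t) (2 ^ j * n₀ + r) *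
        (cellSign j r * cellSign j s * cellSign j t)

/-- The finite form of the bound. -/
def DiscreteBound (C : ℝ) : Prop :=
  ∀ (N : ℕ) (A : Fin 3 → ℕ → ℕ → ℝ), ∑ j ∈ Finset.Icc 1 N, |dlayer N j A| ≤
    C * ∑ v, ∑ r ∈ Finset.range (2 ^ N), ∑ c ∈ Finset.range (2 ^ N), |A v r c| ^ 3

/-- The one-block inequality. -/
def StepBound (C : ℝ) : Prop :=
  ∀ (n : ℕ) (a b c : Fin 2 → Fin 2 → Matrix (Fin n) (Fin n) ℝ),
    |(par a * flipH * par b * flipH * par c * flipH).trace| ≤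
      C * (gain a b + gain b c + gain c a)

/-- The answer to Q2. -/
def DyadicBounded : Prop :=
  ∃ C : ℝ, ∀ (S : Finset ℤ) (ε : ℤ → ℝ), (∀ k ∈ S, |ε k| ≤ 1) →
    ∀ F : Fin 3 → ℝ → ℝ → ℝ, (∀ v, Measurable (Function.uncurry (F v))) →
      (∀ v, ∃ M, ∀ x y, |F v x y| ≤ M) → (∀ v, HasCompactSupport (Function.uncurry (F v))) →
      |∑ k ∈ S, ε k * layer k F| ≤ C * ∏ v, norm3 (F v)

end Vale.Agent.P075
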