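import Vale.Agent.P075.Psd

/-!
# P075: singular systems
-/

noncomputable section

open Matrix Finset

namespace Vale.Agent.P075

variable {ι : Type*} [Fintype ι] [DecidableEq ι]

/-- Weights with orthonormal vectors attached to the nonzero weights. -/
structure Sys (ι : Type*) [Fintype ι] [DecidableEq ι] where
  a : ι → ℝ
  e : ι → ι → ℝ
  nonneg : ∀ p, 0 ≤ a p
  orth : ∀ p q, e p ⬝ᵥ e q = if p = q ∧ a p ≠ 0 then 1 else 0

namespace Sys

variable (P : Sys ι)

theorem e_eq_zero {p : ι} (h : P.a p = 0) : P.e p = 0 :=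
  dotProduct_self_eq_zero.1 (by rw [P.orth]; simp [h])

theorem e_self {p : ι} (h : P.a p ≠ 0) : P.e p ⬝ᵥ P.e p = 1 := by
  rw [P.orth]; simp [h]

/-- The matrix `∑ g_p e_p e_pᵀ`. -/
def mat (g : ι → ℝ) : Matrix ι ι ℝ := ∑ p, g p • vecMulVec (P.e p) (P.e p)

theorem mat_mulVec (g : ι → ℝ) (x : ι → ℝ) :
    P.mat g *ᵥ x = ∑ p, (g p * (P.e p ⬝ᵥ x)) • P.e p := by
  rw [mat, sum_mulVec]
  refine sum_congr rfl fun p _ => ?_
  rw [smul_mulVec, vecMulVec_mulVec]
  ext i
  simp [mul_assoc, mul_comm (P.e p i)]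

theorem qf_mat (g : ι → ℝ) (x : ι → ℝ) :
    qf (P.mat g) x = ∑ p, g p * (P.e p ⬝ᵥ x) ^ 2 := by
  rw [qf, mat_mulVec, dotProduct_sum]
  refine sum_congr rfl fun p _ => ?_
  rw [dotProduct_smul, smul_eq_mul, dotProduct_comm x]
  ring

theorem mat_symm (g : ι → ℝ) : (P.mat g)ᵀ = P.mat g := by
  simp [mat, transpose_sum, transpose_smul, transpose_vecMulVec]

theorem mat_psd {g : ι → ℝ} (hg : ∀ p, 0 ≤ g p) : (P.mat g).PosSemidef :=
  psd_of_qf (P.mat_symm g) fun x => by
    rw [qf_mat]; exact sum_nonneg fun p _ => mul_nonneg (hg p) (sq_nonneg _)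

theorem mat_sub (g g' : ι → ℝ) : P.mat g - P.mat g' = P.mat (fun p => g p - g' p) := by
  simp [mat, sub_smul]

theorem norm_sum_sq (α : ι → ℝ) (s : Finset ι) :
    (∑ p ∈ s, α p • P.e p) ⬝ᵥ (∑ p ∈ s, α p • P.e p) ≤ ∑ p ∈ s, α p ^ 2 := by
  rw [sum_dotProduct]
  refine sum_le_sum fun p hp => ?_
  rw [dotProduct_sum]
  rw [sum_eq_single p (fun q _ hq => by simp [dotProduct_smul, smul_dotProduct, P.orth, Ne.symm hq])
    (fun h => absurd hp h)]
  simp only [dotProduct_smul, smul_dotProduct, smul_eq_mul, P.orth]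
  split_ifs
  · exact le_of_eq (by ring)
  · nlinarith [sq_nonneg (α p)]

theorem bessel (x : ι → ℝ) : ∑ p, (P.e p ⬝ᵥ x) ^ 2 ≤ x ⬝ᵥ x := by
  set y := ∑ p, (P.e p ⬝ᵥ x) • P.e p with hy
  have h1 : x ⬝ᵥ y = ∑ p, (P.e p ⬝ᵥ x) ^ 2 := by
    rw [hy, dotProduct_sum]
    exact sum_congr rfl fun p _ => by rw [dotProduct_smul, smul_eq_mul, dotProduct_comm x]; ring
  have h2 : y ⬝ᵥ y ≤ ∑ p, (P.e p ⬝ᵥ x) ^ 2 := P.norm_sum_sq _ univ
  have h3 := dot_self_nonneg (x - y)
  have h4 : (x - y) ⬝ᵥ (x - y) = x ⬝ᵥ x - 2 * (x ⬝ᵥ y) + y ⬝ᵥ y := by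
    simp only [sub_dotProduct, dotProduct_sub, dotProduct_comm y x]; ring
  linarith

theorem mat_mul (g g' : ι → ℝ) : P.mat g * P.mat g' = P.mat (fun p => g p * g' p) := by
  simp only [mat, Finset.sum_mul]
  refine sum_congr rfl fun p _ => ?_
  rw [Finset.mul_sum, sum_eq_single p]
  · rw [smul_mul_smul_comm, vecMulVec_mul_vecMulVec]
    by_cases h : P.a p = 0
    · simp [P.e_eq_zero h]
    · simp [P.e_self h]
  · intro q _ hq
    rw [smul_mul_smul_comm, vecMulVec_mul_vecMulVec, P.orth]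
    simp [Ne.symm hq]
  · simp

theorem trace_mat (g : ι → ℝ) : (P.mat g).trace = ∑ p, g p * (P.e p ⬝ᵥ P.e p) := by
  simp [mat, trace_sum, trace_smul, trace_vecMulVec]

theorem trace_mat_mul (g : ι → ℝ) (T : Matrix ι ι ℝ) :
    (P.mat g * T).trace = ∑ p, g p * qf T (P.e p) := by
  rw [mat, Finset.sum_mul, trace_sum]
  refine sum_congr rfl fun p _ => ?_
  rw [smul_mul, trace_smul, vecMulVec_mul, trace_vecMulVec, smul_eq_mul, qf, dotProduct_mulVec,
    dotProduct_comm]

end Sys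

/-- Singular value decomposition in the form of two systems with common weights. -/
theorem exists_systems (A : Matrix ι ι ℝ) : ∃ U V : Sys ι, U.a = V.a ∧
    A = ∑ p, U.a p • vecMulVec (U.e p) (V.e p) := by
  have hG : (Aᵀ * A).PosSemidef := by
    simpa [conjTranspose_eq_transpose_of_trivial] using posSemidef_conjTranspose_mul_self A
  set b := hG.1.eigenvectorBasis with hb
  set w : ι → ι → ℝ := fun p => ⇑(b p) with hw
  have hwo : ∀ p q, w p ⬝ᵥ w q = if p = q then 1 else 0 := by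
    intro p q
    have h1 := b.inner_eq_ite q p
    rw [EuclideanSpace.inner_eq_star_dotProduct] at h1
    have h2 : w p ⬝ᵥ w q = if q = p then 1 else 0 := by simpa using h1
    simp [h2, eq_comm]
  have hAw : ∀ p q, (A *ᵥ w p) ⬝ᵥ (A *ᵥ w q) =
      if p = q then hG.1.eigenvalues p else 0 := by
    intro p q
    have h1 : (A *ᵥ w p) ⬝ᵥ (A *ᵥ w q) = w p ⬝ᵥ ((Aᵀ * A) *ᵥ w q) := by
      rw [← mulVec_mulVec, dotProduct_mulVec (w p) Aᵀ, vecMul_transpose]
    rw [h1, show (Aᵀ * A) *ᵥ w q = hG.1.eigenvalues q • w q from hG.1.mulVec_eigenvectorBasis q,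
      dotProduct_smul, hwo, smul_eq_mul]
    split_ifs with h
    · rw [h, mul_one]
    · rw [mul_zero]
  set a : ι → ℝ := fun p => Real.sqrt (hG.1.eigenvalues p) with ha
  have ha2 : ∀ p, a p * a p = hG.1.eigenvalues p := fun p =>
    Real.mul_self_sqrt (hG.eigenvalues_nonneg p)
  have hAz : ∀ p, a p = 0 → A *ᵥ w p = 0 := by
    intro p hp
    apply dotProduct_self_eq_zero.1
    rw [hAw, if_pos rfl, ← ha2, hp, zero_mul]
  refine ⟨⟨a, fun p => (a p)⁻¹ • (A *ᵥ w p), fun p => Real.sqrt_nonneg _, ?_⟩,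
    ⟨a, fun p => if a p = 0 then 0 else w p, fun p => Real.sqrt_nonneg _, ?_⟩, rfl, ?_⟩
  · intro p q
    rw [dotProduct_smul, smul_dotProduct, hAw, smul_eq_mul, smul_eq_mul]
    by_cases hpq : p = q
    · subst hpq
      rw [if_pos rfl, ← ha2]
      by_cases h : a p = 0
      · simp [h]
      · simp [h]
    · simp [hpq]
  · intro p q
    by_cases hp : a p = 0
    · simp [hp]
    · by_cases hq : a q = 0
      · have : p ≠ q := fun h => hp (h ▸ hq)
        simp [hq, this]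
      · simp [hp, hq, hwo]
  · apply Matrix.ext_of_mulVec_single
    intro i
    set x : ι → ℝ := Pi.single i 1
    have hx : x = ∑ p, (w p ⬝ᵥ x) • w p := by
      have h1 := b.sum_repr' (WithLp.toLp 2 x)
      have h2 := congrArg WithLp.ofLp h1
      simp only [WithLp.ofLp_sum, WithLp.ofLp_smul] at h2
      refine h2.symm.trans (sum_congr rfl fun p _ => ?_)
      rw [EuclideanSpace.inner_eq_star_dotProduct]
      simp [hw, dotProduct_comm]
    conv_lhs => rw [hx, mulVec_sum]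
    rw [sum_mulVec]
    refine sum_congr rfl fun p _ => ?_
    rw [mulVec_smul, smul_mulVec, vecMulVec_mulVec]
    by_cases hp : a p = 0
    · simp [hp, hAz p hp]
    · ext j
      simp [hp]
      field_simp

theorem sys_transpose_mul {U V : Sys ι} (hUV : U.a = V.a) :
    (∑ p, U.a p • vecMulVec (U.e p) (V.e p))ᵀ * (∑ p, U.a p • vecMulVec (U.e p) (V.e p)) =
      V.mat (fun p => V.a p * V.a p) := by
  simp only [transpose_sum, transpose_smul, transpose_vecMulVec, Finset.sum_mul, Sys.mat]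
  refine sum_congr rfl fun p _ => ?_
  rw [Finset.mul_sum, sum_eq_single p]
  · rw [smul_mul_smul_comm, vecMulVec_mul_vecMulVec, U.orth]
    by_cases h : V.a p = 0
    · simp [hUV, h]
    · simp [hUV, h]
  · intro q _ hq
    rw [smul_mul_smul_comm, vecMulVec_mul_vecMulVec, U.orth]
    simp [Ne.symm hq]
  · simp

theorem sys_mul_transpose {U V : Sys ι} (hUV : U.a = V.a) :
    (∑ p, U.a p • vecMulVec (U.e p) (V.e p)) * (∑ p, U.a p • vecMulVec (U.e p) (V.e p))ᵀ =
      U.mat (fun p => U.a p * U.a p) := by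
  have h : (∑ p, U.a p • vecMulVec (U.e p) (V.e p))ᵀ =
      ∑ p, V.a p • vecMulVec (V.e p) (U.e p) := by
    simp [transpose_sum, transpose_smul, transpose_vecMulVec, hUV]
  have h2 := sys_transpose_mul (U := V) (V := U) hUV.symm
  rw [← h, transpose_transpose] at h2
  exact h2

end Vale.Agent.P075
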