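import Vale.Agent.P075.Tr32
import Vale.Agent.P075.Sys

/-!
# P075: the trilinear trace inequality
-/

noncomputable section

open Matrix Finset

namespace Vale.Agent.P075

variable {ι : Type*} [Fintype ι] [DecidableEq ι]

/-- Superadditivity defect of `tr32`. -/
def Gam (X Y : Matrix ι ι ℝ) : ℝ := tr32 (X + Y) - tr32 X - tr32 Y

/-- The interaction of two systems. -/
def pairK (P Q : Sys ι) : ℝ :=
  ∑ p, ∑ q, P.a p * Q.a q * min (P.a p) (Q.a q) * (P.e p ⬝ᵥ Q.e q) ^ 2

/-- The part of `pairK` where the weight of `P` dominates. -/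
def domK (P Q : Sys ι) : ℝ :=
  ∑ p, ∑ q, if Q.a q ≤ P.a p then P.a p * Q.a q ^ 2 * (P.e p ⬝ᵥ Q.e q) ^ 2 else 0

theorem pairK_comm (P Q : Sys ι) : pairK P Q = pairK Q P := by
  rw [pairK, sum_comm]
  refine sum_congr rfl fun q _ => sum_congr rfl fun p _ => ?_
  rw [min_comm, dotProduct_comm]; ring

theorem domK_le_pairK (P Q : Sys ι) : domK P Q ≤ pairK P Q := by
  refine sum_le_sum fun p _ => sum_le_sum fun q _ => ?_
  split_ifs with h
  · rw [min_eq_right h]; exact le_of_eq (by ring)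
  · have := P.nonneg p; have := Q.nonneg q
    positivity

theorem pairK_le_dom (P Q : Sys ι) : pairK P Q ≤ domK P Q + domK Q P := by
  have e : domK Q P =
      ∑ p, ∑ q, if P.a p ≤ Q.a q then Q.a q * P.a p ^ 2 * (P.e p ⬝ᵥ Q.e q) ^ 2 else 0 := by
    rw [domK, sum_comm]
    simp_rw [dotProduct_comm (Q.e _) (P.e _)]
  rw [e, domK, pairK, ← sum_add_distrib]
  refine sum_le_sum fun p _ => ?_
  rw [← sum_add_distrib]
  refine sum_le_sum fun q _ => ?_
  have := P.nonneg p
  have := Q.nonneg q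
  rcases le_total (Q.a q) (P.a p) with h | h
  · rw [if_pos h, min_eq_right h]
    have : (0 : ℝ) ≤ if P.a p ≤ Q.a q then Q.a q * P.a p ^ 2 * (P.e p ⬝ᵥ Q.e q) ^ 2 else 0 := by
      split_ifs <;> positivity
    nlinarith
  · rw [if_pos h, min_eq_left h]
    have : (0 : ℝ) ≤ if Q.a q ≤ P.a p then P.a p * Q.a q ^ 2 * (P.e p ⬝ᵥ Q.e q) ^ 2 else 0 := by
      split_ifs <;> positivity
    nlinarith

/-- The dominated interaction is controlled by the growth of the square root. -/
theorem domK_le (P Q : Sys ι) {T : Matrix ι ι ℝ} (hT : T.PosSemidef)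
    (h : T * T = P.mat (fun p => P.a p * P.a p) + Q.mat (fun q => Q.a q * Q.a q)) :
    domK P Q ≤ 4 * ((P.mat (fun p => P.a p * P.a p) * T).trace -
      (P.mat (fun p => P.a p * P.a p * P.a p)).trace) := by
  rw [P.trace_mat_mul, P.trace_mat, ← sum_sub_distrib, mul_sum]
  refine sum_le_sum fun p _ => ?_
  set a := P.a p with ha
  by_cases h0 : a = 0
  · refine le_trans (sum_nonpos fun q _ => ?_) (by simp [h0])
    simp [h0]
  have ha0 : 0 < a := lt_of_le_of_ne (P.nonneg p) (Ne.symm h0)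
  set e := P.e p with he
  have hee : e ⬝ᵥ e = 1 := P.e_self h0
  set β : ι → ℝ := fun q => if Q.a q ≤ a then Q.a q else 0 with hβ
  have hβ0 : ∀ q, 0 ≤ β q := fun q => by
    simp only [hβ]; split_ifs
    · exact Q.nonneg q
    · exact le_rfl
  set R' : Matrix ι ι ℝ := P.mat (fun i => if i = p then a else 0) with hR'
  set S' : Matrix ι ι ℝ := Q.mat β with hS'
  have hR'psd : R'.PosSemidef := P.mat_psd fun i => by
    split_ifs
    · exact ha0.le
    · exact le_rfl
  have hZ : (R' * R' + S' * S').PosSemidef :=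
    (mul_self_psd (psd_symm hR'psd)).add (mul_self_psd (Q.mat_symm β))
  obtain ⟨t, ht, htt⟩ := exists_sqrt hZ
  have htT : (T - t).PosSemidef := by
    refine psd_sub_of_sq hT ht ?_
    rw [h, htt, hR', hS', P.mat_mul, Q.mat_mul, add_sub_add_comm, P.mat_sub, Q.mat_sub]
    refine (P.mat_psd fun i => ?_).add (Q.mat_psd fun q => ?_)
    · by_cases hi : i = p
      · subst hi; simp [← ha]
      · simp [hi, mul_self_nonneg]
    · simp only [hβ]
      split_ifs
      · simp
      · simp [mul_self_nonneg]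
  have htR : (t - R').PosSemidef := by
    refine psd_sub_of_sq ht hR'psd ?_
    rw [htt, add_sub_cancel_left]
    exact mul_self_psd (Q.mat_symm β)
  have hupper : ((2 * a) • (1 : Matrix ι ι ℝ) - t).PosSemidef := by
    refine psd_sub_of_sq (PosSemidef.one.smul (by positivity)) ht (psd_of_qf ?_ fun x => ?_)
    · rw [transpose_sub, htt]
      simp [transpose_add, transpose_mul, psd_symm hR'psd, Q.mat_symm β, hS']
    · rw [qf_sub, htt, qf_add, hR', hS', P.mat_mul, Q.mat_mul, P.qf_mat, Q.qf_mat,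
        smul_mul_smul_comm, one_mul, qf_smul, qf_one]
      have hx := dot_self_nonneg x
      have b1 : ∑ i, (if i = p then a else 0) * (if i = p then a else 0) * (P.e i ⬝ᵥ x) ^ 2 ≤
          a * a * (x ⬝ᵥ x) := by
        refine le_trans (sum_le_sum fun i _ => mul_le_mul_of_nonneg_right ?_ (sq_nonneg _))
          (by rw [← mul_sum]; exact mul_le_mul_of_nonneg_left (P.bessel x) (mul_self_nonneg a))
        split_ifs <;> nlinarith
      have b2 : ∑ q, β q * β q * (Q.e q ⬝ᵥ x) ^ 2 ≤ a * a * (x ⬝ᵥ x) := by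
        refine le_trans (sum_le_sum fun q _ => mul_le_mul_of_nonneg_right ?_ (sq_nonneg _))
          (by rw [← mul_sum]; exact mul_le_mul_of_nonneg_left (Q.bessel x) (mul_self_nonneg a))
        have := hβ0 q
        simp only [hβ] at this ⊢
        split_ifs with hq <;> nlinarith [Q.nonneg q]
      nlinarith [mul_nonneg (mul_self_nonneg a) hx]
  have hRe : R' *ᵥ e = a • e := by
    rw [hR', P.mat_mulVec, sum_eq_single p]
    · simp [← he, hee]
    · intro i _ hi; simp [hi]
    · simp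
  set D := t - R' with hD
  set d := qf D e with hd
  set u := D *ᵥ e with hu
  have hte : t *ᵥ e = a • e + u := by
    rw [hu, hD, sub_mulVec, hRe]; abel
  have hud : e ⬝ᵥ u = d := rfl
  have hη : ∑ q, β q * β q * (Q.e q ⬝ᵥ e) ^ 2 = u ⬝ᵥ u + 2 * a * d := by
    have h1 := qf_mul_self (psd_symm ht) e
    rw [htt, qf_add, qf_mul_self (psd_symm hR'psd), hRe, hte, hS', Q.mat_mul, Q.qf_mat] at h1
    simp only [dotProduct_add, add_dotProduct, dotProduct_smul, smul_dotProduct, smul_eq_mul,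
      hee, dotProduct_comm u e, hud] at h1
    linarith
  have hd0 : 0 ≤ d := qf_nonneg htR e
  have huu : u ⬝ᵥ u ≤ 2 * a * d := by
    have h1 := psd_cauchy htR e u
    have h2 : qf D u ≤ 2 * a * (u ⬝ᵥ u) := by
      have h3 := qf_nonneg hupper u
      rw [qf_sub, qf_smul, qf_one] at h3
      have h4 := qf_nonneg hR'psd u
      rw [hD, qf_sub]
      linarith
    rw [← hu] at h1
    rcases eq_or_lt_of_le (dot_self_nonneg u) with hz | hz
    · rw [← hz]; positivity
    · have h5 : (u ⬝ᵥ u) ^ 2 ≤ d * (2 * a * (u ⬝ᵥ u)) :=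
        h1.trans (mul_le_mul_of_nonneg_left h2 hd0)
      by_contra hlt
      push Not at hlt
      nlinarith [mul_pos hz (sub_pos.2 hlt)]
  have hqT : d ≤ qf T e - a := by
    have h1 := qf_nonneg htT e
    have h2 : qf R' e = a := by simp [qf, hRe, hee]
    rw [qf_sub] at h1
    rw [hd, hD, qf_sub, h2]
    linarith
  have hsum : (∑ q, if Q.a q ≤ a then a * Q.a q ^ 2 * (e ⬝ᵥ Q.e q) ^ 2 else 0) =
      a * ∑ q, β q * β q * (Q.e q ⬝ᵥ e) ^ 2 := by
    rw [mul_sum]
    refine sum_congr rfl fun q _ => ?_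
    simp only [hβ]
    split_ifs
    · rw [dotProduct_comm e]; ring
    · simp
  rw [hsum, hη, hee]
  nlinarith [mul_le_mul_of_nonneg_left huu ha0.le,
    mul_le_mul_of_nonneg_left hqT (mul_self_nonneg a)]

/-- The pair inequality. -/
theorem pairK_le (P Q : Sys ι) :
    pairK P Q ≤ 4 * Gam (P.mat (fun p => P.a p * P.a p)) (Q.mat (fun q => Q.a q * Q.a q)) := by
  set X := P.mat (fun p => P.a p * P.a p) with hX
  set Y := Q.mat (fun q => Q.a q * Q.a q) with hY
  obtain ⟨T, hT, hTT⟩ := exists_sqrt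
    ((P.mat_psd (g := fun p => P.a p * P.a p) fun p => mul_self_nonneg _).add
      (Q.mat_psd (g := fun q => Q.a q * Q.a q) fun q => mul_self_nonneg _))
  rw [← hX, ← hY] at hTT
  have h1 := domK_le P Q hT hTT
  have h2 := domK_le Q P hT (hTT.trans (add_comm _ _))
  rw [← hX] at h1
  rw [← hY] at h2
  have eX : tr32 X = (P.mat fun p => P.a p * P.a p * P.a p).trace := by
    rw [hX, ← P.mat_mul, tr32_eq (P.mat_psd P.nonneg), P.mat_mul, P.mat_mul]
  have eY : tr32 Y = (Q.mat fun p => Q.a p * Q.a p * Q.a p).trace := by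
    rw [hY, ← Q.mat_mul, tr32_eq (Q.mat_psd Q.nonneg), Q.mat_mul, Q.mat_mul]
  have eT : tr32 (X + Y) = (X * T).trace + (Y * T).trace := by
    rw [← hTT, tr32_eq hT, hTT, Matrix.add_mul, trace_add]
  have h3 := pairK_le_dom P Q
  rw [Gam, eX, eY, eT]
  linarith

end Vale.Agent.P075
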