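import Mathlib

/-!
# P075: elementary facts on real positive semidefinite matrices
-/

noncomputable section

open Matrix Finset

namespace Vale.Agent.P075

variable {ι : Type*} [Fintype ι]

/-- The quadratic form of a matrix. -/
def qf (R : Matrix ι ι ℝ) (x : ι → ℝ) : ℝ := x ⬝ᵥ (R *ᵥ x)

omit [Fintype ι] in
theorem psd_symm {R : Matrix ι ι ℝ} (hR : R.PosSemidef) : Rᵀ = R := by
  rw [← conjTranspose_eq_transpose_of_trivial]; exact hR.1

theorem qf_nonneg {R : Matrix ι ι ℝ} (hR : R.PosSemidef) (x : ι → ℝ) : 0 ≤ qf R x := by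
  simpa [qf] using hR.dotProduct_mulVec_nonneg x

theorem psd_of_qf {R : Matrix ι ι ℝ} (hs : Rᵀ = R) (h : ∀ x, 0 ≤ qf R x) : R.PosSemidef := by
  refine Matrix.PosSemidef.of_dotProduct_mulVec_nonneg ?_ ?_
  · rwa [IsHermitian, conjTranspose_eq_transpose_of_trivial]
  · intro x; simpa [qf] using h x

theorem qf_add (R S : Matrix ι ι ℝ) (x : ι → ℝ) : qf (R + S) x = qf R x + qf S x := by
  simp [qf, add_mulVec]

theorem qf_sub (R S : Matrix ι ι ℝ) (x : ι → ℝ) : qf (R - S) x = qf R x - qf S x := by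
  simp [qf, sub_mulVec]

theorem qf_smul (c : ℝ) (R : Matrix ι ι ℝ) (x : ι → ℝ) : qf (c • R) x = c * qf R x := by
  simp [qf, smul_mulVec]

theorem qf_one [DecidableEq ι] (x : ι → ℝ) : qf (1 : Matrix ι ι ℝ) x = x ⬝ᵥ x := by
  simp [qf]

theorem dot_self_nonneg (x : ι → ℝ) : 0 ≤ x ⬝ᵥ x :=
  Finset.sum_nonneg fun i _ => mul_self_nonneg (x i)

theorem dot_mulVec_symm {R : Matrix ι ι ℝ} (hR : Rᵀ = R) (x y : ι → ℝ) :
    x ⬝ᵥ (R *ᵥ y) = (R *ᵥ x) ⬝ᵥ y := by
  rw [dotProduct_mulVec, ← mulVec_transpose, hR]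

theorem qf_mul_self {R : Matrix ι ι ℝ} (hR : Rᵀ = R) (x : ι → ℝ) :
    qf (R * R) x = (R *ᵥ x) ⬝ᵥ (R *ᵥ x) := by
  rw [qf, ← mulVec_mulVec, dot_mulVec_symm hR]

theorem mul_self_psd {R : Matrix ι ι ℝ} (hR : Rᵀ = R) : (R * R).PosSemidef := by
  have := posSemidef_conjTranspose_mul_self R
  rwa [conjTranspose_eq_transpose_of_trivial, hR] at this

/-- Cauchy-Schwarz for a positive semidefinite form. -/
theorem psd_cauchy {R : Matrix ι ι ℝ} (hR : R.PosSemidef) (x y : ι → ℝ) :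
    ((R *ᵥ x) ⬝ᵥ y) ^ 2 ≤ qf R x * qf R y := by
  set b := (R *ᵥ x) ⬝ᵥ y with hb
  have h : ∀ t : ℝ, 0 ≤ qf R y * (t * t) + (2 * b) * t + qf R x := by
    intro t
    have h0 := qf_nonneg hR (x + t • y)
    have e1 : x ⬝ᵥ (R *ᵥ y) = b := by rw [dot_mulVec_symm (psd_symm hR)]
    have e2 : y ⬝ᵥ (R *ᵥ x) = b := by rw [dotProduct_comm]
    have : qf R (x + t • y) = qf R y * (t * t) + (2 * b) * t + qf R x := by
      simp only [qf, mulVec_add, mulVec_smul, dotProduct_add, add_dotProduct, dotProduct_smul,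
        smul_dotProduct, smul_eq_mul, e1, e2]
      ring
    linarith
  have := discrim_le_zero h
  simp [discrim] at this
  nlinarith

/-- Loewner monotonicity of the square root. -/
theorem psd_sub_of_sq {R S : Matrix ι ι ℝ} (hR : R.PosSemidef) (hS : S.PosSemidef)
    (h : (R * R - S * S).PosSemidef) : (R - S).PosSemidef := by
  classical
  have hH : (R - S).IsHermitian := hR.1.sub hS.1
  rw [hH.posSemidef_iff_eigenvalues_nonneg]
  intro i
  show (0 : ℝ) ≤ hH.eigenvalues i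
  by_contra hlt
  push Not at hlt
  set m := hH.eigenvalues i with hm
  set v : ι → ℝ := ⇑(hH.eigenvectorBasis i) with hv
  have hev : (R - S) *ᵥ v = m • v := hH.mulVec_eigenvectorBasis i
  have hRv : R *ᵥ v = S *ᵥ v + m • v := by
    rw [← hev, sub_mulVec]; abel
  have hnorm : v ⬝ᵥ v = 1 := by
    have h1 := hH.eigenvectorBasis.orthonormal.1 i
    have h2 := real_inner_self_eq_norm_sq (hH.eigenvectorBasis i)
    rw [h1, EuclideanSpace.inner_eq_star_dotProduct] at h2
    simpa using h2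
  have h0 := qf_nonneg h v
  rw [qf_sub, qf_mul_self (psd_symm hR), qf_mul_self (psd_symm hS), hRv] at h0
  have hr : 0 ≤ qf R v := qf_nonneg hR v
  have hs : 0 ≤ qf S v := qf_nonneg hS v
  have hq : qf R v = qf S v + m := by
    simp only [qf, hRv, dotProduct_add, dotProduct_smul, smul_eq_mul, hnorm, mul_one]
  have hx : (S *ᵥ v + m • v) ⬝ᵥ (S *ᵥ v + m • v) =
      (S *ᵥ v) ⬝ᵥ (S *ᵥ v) + 2 * m * qf S v + m ^ 2 := by
    simp only [qf, dotProduct_add, add_dotProduct, dotProduct_smul, smul_dotProduct, smul_eq_mul,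
      hnorm, dotProduct_comm (S *ᵥ v) v]
    ring
  rw [hx] at h0
  nlinarith

theorem psd_sqrt_unique {R S : Matrix ι ι ℝ} (hR : R.PosSemidef) (hS : S.PosSemidef)
    (h : R * R = S * S) : R = S := by
  classical
  have h1 : (R - S).PosSemidef := psd_sub_of_sq hR hS (by rw [h, sub_self]; exact PosSemidef.zero)
  have h2 : (S - R).PosSemidef := psd_sub_of_sq hS hR (by rw [h, sub_self]; exact PosSemidef.zero)
  have : (R - S).trace = 0 := by
    have a := h1.trace_nonneg
    have b := h2.trace_nonneg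
    simp only [trace_sub] at a b ⊢
    linarith
  rw [h1.trace_eq_zero_iff] at this
  exact sub_eq_zero.1 this

theorem psd_exists_sqrt {Z : Matrix ι ι ℝ} (hZ : Z.PosSemidef) :
    ∃ R : Matrix ι ι ℝ, R.PosSemidef ∧ R * R = Z := by
  classical
  have hH := hZ.1
  set U : Matrix ι ι ℝ := (hH.eigenvectorUnitary : Matrix ι ι ℝ) with hU
  have hUU : Uᴴ * U = 1 := by
    rw [hU, ← star_eq_conjTranspose]; exact Unitary.coe_star_mul_self _
  refine ⟨U * diagonal (fun i => Real.sqrt (hH.eigenvalues i)) * Uᴴ, ?_, ?_⟩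
  · exact (PosSemidef.diagonal fun i => Real.sqrt_nonneg _).mul_mul_conjTranspose_same U
  · have hd : diagonal (fun i => Real.sqrt (hH.eigenvalues i)) *
        diagonal (fun i => Real.sqrt (hH.eigenvalues i)) =
        diagonal (RCLike.ofReal ∘ hH.eigenvalues : ι → ℝ) := by
      rw [diagonal_mul_diagonal]
      congr 1; funext i
      simpa using Real.mul_self_sqrt (hZ.eigenvalues_nonneg i)
    conv_rhs => rw [hH.spectral_theorem, Unitary.conjStarAlgAut_apply, ← hU, star_eq_conjTranspose]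
    rw [← hd]
    calc _ = U * diagonal (fun i => Real.sqrt (hH.eigenvalues i)) * (Uᴴ * U) *
        diagonal (fun i => Real.sqrt (hH.eigenvalues i)) * Uᴴ := by simp only [Matrix.mul_assoc]
      _ = _ := by rw [hUU, Matrix.mul_one]; simp only [Matrix.mul_assoc]

theorem trace_mul_nonneg {P Q : Matrix ι ι ℝ} (hP : P.PosSemidef) (hQ : Q.PosSemidef) :
    0 ≤ (P * Q).trace := by
  obtain ⟨S, hS, rfl⟩ := psd_exists_sqrt hQ
  have h := (hP.conjTranspose_mul_mul_same S).trace_nonneg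
  rw [hS.1.eq, trace_mul_cycle] at h
  rw [trace_mul_comm, Matrix.mul_assoc]
  simpa [Matrix.mul_assoc] using h

theorem trace_mul_mono {P Q Q' : Matrix ι ι ℝ} (hP : P.PosSemidef) (hQ : (Q' - Q).PosSemidef) :
    (P * Q).trace ≤ (P * Q').trace := by
  have := trace_mul_nonneg hP hQ
  rw [Matrix.mul_sub, trace_sub] at this
  linarith

end Vale.Agent.P075
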