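import Vale.Agent.P075.Defs

/-!
# P075: from arrays of cells to measurable functions
-/

noncomputable section

open MeasureTheory Set Filter Topology

namespace Vale.Agent.P075

/-- The cell `[m/2^n, (m+1)/2^n)`. -/
def Cell (n m : ℕ) : Set ℝ := Ico ((m : ℝ) / 2 ^ n) (((m : ℝ) + 1) / 2 ^ n)

/-- The function on the quadrant that is constant on cells of side `2^-n`. -/
def cellFun (n : ℕ) (A : ℕ → ℕ → ℝ) (x y : ℝ) : ℝ :=
  if 0 ≤ x ∧ 0 ≤ y then A ⌊x * 2 ^ n⌋₊ ⌊y * 2 ^ n⌋₊ else 0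

/-- The quadrant. -/
def quad : Set (ℝ × ℝ) := Ici (0 : ℝ) ×ˢ Ici (0 : ℝ)

/-- Bounded measurable functions which vanish in the quadrant off `[0,2^L)^2`. -/
structure Nice (L : ℕ) (M : ℝ) (f : ℝ → ℝ → ℝ) : Prop where
  meas : Measurable (Function.uncurry f)
  bound : ∀ x y, |f x y| ≤ M
  supp : ∀ x y, 0 ≤ x → 0 ≤ y → ((2 : ℝ) ^ L ≤ x ∨ (2 : ℝ) ^ L ≤ y) → f x y = 0

theorem Nice.nonneg {L M f} (h : Nice L M f) : 0 ≤ M :=
  le_trans (abs_nonneg _) (h.bound 0 0)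

theorem cell_nonneg {n m : ℕ} {x : ℝ} (hx : x ∈ Cell n m) : 0 ≤ x :=
  le_trans (by positivity) hx.1

theorem floor_cell {n m : ℕ} {x : ℝ} (hx : x ∈ Cell n m) : ⌊x * 2 ^ n⌋₊ = m := by
  have hp : (0 : ℝ) < 2 ^ n := by positivity
  rw [Nat.floor_eq_iff (mul_nonneg (cell_nonneg hx) hp.le)]
  exact ⟨(div_le_iff₀ hp).1 hx.1, (lt_div_iff₀ hp).1 hx.2⟩

theorem cellFun_apply {n m₀ m₁ : ℕ} (A : ℕ → ℕ → ℝ) {x y : ℝ} (hx : x ∈ Cell n m₀)
    (hy : y ∈ Cell n m₁) : cellFun n A x y = A m₀ m₁ := by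
  rw [cellFun, if_pos ⟨cell_nonneg hx, cell_nonneg hy⟩, floor_cell hx, floor_cell hy]

theorem setIntegral_cells (n m : ℕ) (R : ℕ) (f : ℝ → ℝ) (c : ℕ → ℝ)
    (h : ∀ r < R, ∀ x ∈ Cell n (m + r), f x = c r) :
    IntegrableOn f (Ico ((m : ℝ) / 2 ^ n) (((m : ℝ) + R) / 2 ^ n)) ∧
      ∫ x in Ico ((m : ℝ) / 2 ^ n) (((m : ℝ) + R) / 2 ^ n), f x
        = (∑ r ∈ Finset.range R, c r) / 2 ^ n := by
  induction R with
  | zero => simp
  | succ R ih =>
    obtain ⟨hi, hv⟩ := ih fun r hr => h r (by omega)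
    have hp : (0 : ℝ) < 2 ^ n := by positivity
    have hc : Cell n (m + R) =
        Ico (((m : ℝ) + R) / 2 ^ n) (((m : ℝ) + (R + 1 : ℕ)) / 2 ^ n) := by
      simp [Cell, add_assoc]
    have heq := h R (by omega)
    rw [hc] at heq
    have hint : IntegrableOn f
        (Ico (((m : ℝ) + R) / 2 ^ n) (((m : ℝ) + (R + 1 : ℕ)) / 2 ^ n)) := by
      refine (integrableOn_congr_fun (g := fun _ => c R) heq measurableSet_Ico).2 ?_
      exact integrableOn_const (by simp)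
    have hval : ∫ x in Ico (((m : ℝ) + R) / 2 ^ n) (((m : ℝ) + (R + 1 : ℕ)) / 2 ^ n), f x
        = c R / 2 ^ n := by
      rw [setIntegral_congr_fun measurableSet_Ico heq, setIntegral_const]
      simp only [smul_eq_mul, Measure.real, Real.volume_Ico]
      rw [ENNReal.toReal_ofReal]
      · push_cast; ring
      · have : ((m : ℝ) + R) / 2 ^ n ≤ ((m : ℝ) + (R + 1 : ℕ)) / 2 ^ n := by
          apply div_le_div_of_nonneg_right _ hp.le
          push_cast; linarith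
        linarith
    have h1 : (m : ℝ) / 2 ^ n ≤ ((m : ℝ) + R) / 2 ^ n := by
      apply div_le_div_of_nonneg_right _ hp.le
      simp
    have h2 : ((m : ℝ) + R) / 2 ^ n ≤ ((m : ℝ) + (R + 1 : ℕ)) / 2 ^ n := by
      apply div_le_div_of_nonneg_right _ hp.le
      push_cast; linarith
    rw [← Ico_union_Ico_eq_Ico h1 h2]
    refine ⟨hi.union hint, ?_⟩
    rw [setIntegral_union (Ico_disjoint_Ico_same) measurableSet_Ico hi hint, hv, hval,
      Finset.sum_range_succ]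
    ring

theorem zpow_scale (j n : ℕ) : (2 : ℝ) ^ ((j : ℤ) - n) = 2 ^ j / 2 ^ n := by
  rw [zpow_sub₀ (by norm_num : (2 : ℝ) ≠ 0), zpow_natCast, zpow_natCast]

theorem Iv_scale (j n n₀ : ℕ) : Iv ((j : ℤ) - n) n₀ =
    Ico (((2 ^ j * n₀ : ℕ) : ℝ) / 2 ^ n)
      ((((2 ^ j * n₀ : ℕ) : ℝ) + (2 ^ j : ℕ)) / 2 ^ n) := by
  rw [Iv, zpow_scale]
  push_cast
  congr 1 <;> ring

theorem haar_cell {j n n₀ r : ℕ} (hj : 1 ≤ j) (hr : r < 2 ^ j) {x : ℝ}
    (hx : x ∈ Cell n (2 ^ j * n₀ + r)) : haar ((j : ℤ) - n) n₀ x = cellSign j r := by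
  obtain ⟨i, rfl⟩ : ∃ i, j = i + 1 := ⟨j - 1, by omega⟩
  have hp : (0 : ℝ) < 2 ^ n := by positivity
  have hx1 := (div_le_iff₀ hp).1 hx.1
  have hx2 := (lt_div_iff₀ hp).1 hx.2
  push_cast at hx1 hx2
  have e : ∀ t : ℝ, (2 : ℝ) ^ (((i + 1 : ℕ) : ℤ) - n) * t = 2 ^ (i + 1) * t / 2 ^ n := by
    intro t; rw [zpow_scale]; ring
  unfold haar cellSign
  simp only [e]
  by_cases h : 2 * r < 2 ^ (i + 1)
  · have hr' : (r : ℝ) + 1 ≤ 2 ^ i := by
      have : r + 1 ≤ 2 ^ i := by rw [pow_succ] at h; omega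
      exact_mod_cast this
    rw [if_pos h, indicator_of_mem, indicator_of_notMem, sub_zero]
    · rintro ⟨h1, -⟩
      have := (div_le_iff₀ hp).1 h1
      rw [pow_succ] at this hx2
      nlinarith
    · refine ⟨(div_le_iff₀ hp).2 (le_trans ?_ hx1), (lt_div_iff₀ hp).2 (lt_of_lt_of_le hx2 ?_)⟩
      · rw [pow_succ]; nlinarith [(Nat.cast_nonneg r : (0 : ℝ) ≤ r)]
      · rw [pow_succ]; nlinarith
  · have hr' : (2 : ℝ) ^ i ≤ r := by
      have : 2 ^ i ≤ r := by rw [pow_succ] at h; omega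
      exact_mod_cast this
    have hr'' : (r : ℝ) + 1 ≤ 2 ^ (i + 1) := by
      have : r + 1 ≤ 2 ^ (i + 1) := hr
      exact_mod_cast this
    rw [if_neg h, indicator_of_notMem, indicator_of_mem, zero_sub]
    · refine ⟨(div_le_iff₀ hp).2 (le_trans ?_ hx1), (lt_div_iff₀ hp).2 (lt_of_lt_of_le hx2 ?_)⟩
      · rw [pow_succ]; nlinarith
      · rw [pow_succ] at hr'' ⊢; nlinarith
    · rintro ⟨-, h1⟩
      have := (lt_div_iff₀ hp).1 h1
      rw [pow_succ] at this hx1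
      nlinarith

theorem setIntegral_block {j n n₀ : ℕ} (f : ℝ → ℝ) (c : Fin (2 ^ j) → ℝ)
    (h : ∀ r : Fin (2 ^ j), ∀ x ∈ Cell n (2 ^ j * n₀ + r), f x = c r) :
    ∫ x in Iv ((j : ℤ) - n) n₀, f x = (∑ r, c r) / 2 ^ n := by
  rw [Iv_scale, (setIntegral_cells n (2 ^ j * n₀) (2 ^ j) f
    (fun r => if hr : r < 2 ^ j then c ⟨r, hr⟩ else 0) ?_).2]
  · congr 1
    rw [← Fin.sum_univ_eq_sum_range]
    simp
  · intro r hr x hx
    rw [dif_pos hr]
    exact h ⟨r, hr⟩ x hx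

theorem term_cellFun {j n : ℕ} (hj : 1 ≤ j) (n₀ n₁ n₂ : ℕ) (A : Fin 3 → ℕ → ℕ → ℝ) :
    term ((j : ℤ) - n) n₀ n₁ n₂ (fun v => cellFun n (A v)) =
      ((2 : ℝ) ^ n)⁻¹ ^ 2 * (((2 : ℝ) ^ j)⁻¹ *
        ∑ r : Fin (2 ^ j), ∑ s : Fin (2 ^ j), ∑ t : Fin (2 ^ j),
          A 0 (2 ^ j * n₀ + r) (2 ^ j * n₁ + s) * A 1 (2 ^ j * n₁ + s) (2 ^ j * n₂ + t) *
            A 2 (2 ^ j * n₂ + t) (2 ^ j * n₀ + r) *
            (cellSign j r * cellSign j s * cellSign j t)) := by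
  unfold term
  rw [setIntegral_block (c := fun r => (∑ s : Fin (2 ^ j), (∑ t : Fin (2 ^ j),
      A 0 (2 ^ j * n₀ + r) (2 ^ j * n₁ + s) * A 1 (2 ^ j * n₁ + s) (2 ^ j * n₂ + t) *
            A 2 (2 ^ j * n₂ + t) (2 ^ j * n₀ + r) *
            (cellSign j r * cellSign j s * cellSign j t)) / 2 ^ n) / 2 ^ n)]
  · rw [zpow_scale]
    simp only [← Finset.sum_div]
    have hn : (2 : ℝ) ^ n ≠ 0 := by positivity
    have hj' : (2 : ℝ) ^ j ≠ 0 := by positivity
    field_simp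
  · intro r x hx
    apply setIntegral_block
    intro s y hy
    apply setIntegral_block
    intro t z hz
    dsimp only
    rw [cellFun_apply _ hx hy, cellFun_apply _ hy hz, cellFun_apply _ hz hx,
      haar_cell hj r.2 hx, haar_cell hj s.2 hy, haar_cell hj t.2 hz]

theorem nice_cellFun {n L : ℕ} {M : ℝ} {A : ℕ → ℕ → ℝ} (hb : ∀ r c, |A r c| ≤ M)
    (hs : ∀ r c, (2 ^ (n + L) ≤ r ∨ 2 ^ (n + L) ≤ c) → A r c = 0) :
    Nice L M (cellFun n A) := by
  refine ⟨?_, ?_, ?_⟩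
  · refine Measurable.ite ?_ ?_ measurable_const
    · exact ((measurableSet_le measurable_const measurable_fst).inter
        (measurableSet_le measurable_const measurable_snd))
    · exact (measurable_of_countable (fun p : ℕ × ℕ => A p.1 p.2)).comp
        ((measurable_fst.mul_const _).nat_floor.prodMk (measurable_snd.mul_const _).nat_floor)
  · intro x y
    unfold cellFun
    split
    · exact hb _ _
    · simpa using le_trans (abs_nonneg _) (hb 0 0)
  · intro x y hx hy h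
    rw [cellFun, if_pos ⟨hx, hy⟩]
    have key : ∀ z : ℝ, (2 : ℝ) ^ L ≤ z → 2 ^ (n + L) ≤ ⌊z * 2 ^ n⌋₊ := by
      intro z hz
      apply Nat.le_floor
      push_cast
      calc (2 : ℝ) ^ (n + L) = 2 ^ L * 2 ^ n := by rw [pow_add, mul_comm]
        _ ≤ z * 2 ^ n := by gcongr
    exact hs _ _ (h.imp (key x) (key y))

theorem setIntegral_quad_eq_box {L : ℕ} {g : ℝ × ℝ → ℝ}
    (hg : ∀ x y, 0 ≤ x → 0 ≤ y → ((2 : ℝ) ^ L ≤ x ∨ (2 : ℝ) ^ L ≤ y) → g (x, y) = 0) :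
    ∫ p in quad, g p = ∫ p in Ico (0 : ℝ) (2 ^ L) ×ˢ Ico (0 : ℝ) (2 ^ L), g p := by
  refine setIntegral_eq_of_subset_of_forall_sdiff_eq_zero
    (measurableSet_Ici.prod measurableSet_Ici) ?_ ?_
  · exact prod_mono Ico_subset_Ici_self Ico_subset_Ici_self
  · rintro ⟨x, y⟩ ⟨⟨hx, hy⟩, hnot⟩
    apply hg x y hx hy
    by_contra hc
    push Not at hc
    exact hnot ⟨⟨hx, hc.1⟩, ⟨hy, hc.2⟩⟩

theorem integrableOn_box {L : ℕ} {g : ℝ × ℝ → ℝ} (hm : Measurable g) {M : ℝ}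
    (hb : ∀ p, |g p| ≤ M) :
    IntegrableOn g (Ico (0 : ℝ) (2 ^ L) ×ˢ Ico (0 : ℝ) (2 ^ L)) := by
  refine IntegrableOn.of_bound ?_ hm.aestronglyMeasurable M
    (Filter.Eventually.of_forall fun p => by simpa using hb p)
  rw [Measure.volume_eq_prod, Measure.prod_prod]
  simp [ENNReal.mul_lt_top]

theorem integral_cube_cellFun {n L : ℕ} {M : ℝ} {A : ℕ → ℕ → ℝ} (hb : ∀ r c, |A r c| ≤ M)
    (hs : ∀ r c, (2 ^ (n + L) ≤ r ∨ 2 ^ (n + L) ≤ c) → A r c = 0) :
    ∫ p in quad, |cellFun n A p.1 p.2| ^ 3 = ((2 : ℝ) ^ n)⁻¹ ^ 2 *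
      ∑ r ∈ Finset.range (2 ^ (n + L)), ∑ c ∈ Finset.range (2 ^ (n + L)), |A r c| ^ 3 := by
  have hN := nice_cellFun hb hs
  rw [setIntegral_quad_eq_box (L := L) (g := fun p => |cellFun n A p.1 p.2| ^ 3)
    (fun x y hx hy h => by simp [hN.supp x y hx hy h])]
  have hint : IntegrableOn (fun p : ℝ × ℝ => |cellFun n A p.1 p.2| ^ 3)
      (Ico (0 : ℝ) (2 ^ L) ×ˢ Ico (0 : ℝ) (2 ^ L)) := by
    refine integrableOn_box (M := M ^ 3) (hN.meas.abs.pow_const 3) fun p => ?_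
    rw [abs_of_nonneg (by positivity)]
    exact pow_le_pow_left₀ (abs_nonneg _) (hN.bound _ _) 3
  rw [Measure.volume_eq_prod] at hint ⊢
  rw [setIntegral_prod _ hint]
  have hI : Ico (0 : ℝ) (2 ^ L) =
      Ico (((0 : ℕ) : ℝ) / 2 ^ n) ((((0 : ℕ) : ℝ) + (2 ^ (n + L) : ℕ)) / 2 ^ n) := by
    push_cast
    rw [zero_div, zero_add, pow_add, mul_div_cancel_left₀]
    positivity
  rw [hI, (setIntegral_cells n 0 (2 ^ (n + L)) _
    (fun r => (∑ c ∈ Finset.range (2 ^ (n + L)), |A r c| ^ 3) / 2 ^ n) ?_).2]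
  · rw [← Finset.sum_div]; field_simp
  · intro r _ x hx
    rw [zero_add] at hx
    refine (setIntegral_cells n 0 (2 ^ (n + L)) _ (fun c => |A r c| ^ 3) ?_).2
    intro c _ y hy
    rw [zero_add] at hy
    show |cellFun n A x y| ^ 3 = _
    rw [cellFun_apply A hx hy]

theorem two_zpow_mul_pow {L : ℕ} {k : ℤ} (hk : k ≤ L) :
    (2 : ℝ) ^ k * ((2 ^ ((L : ℤ) - k).toNat : ℕ) : ℝ) = 2 ^ L := by
  push_cast
  rw [← zpow_natCast (2 : ℝ) ((L : ℤ) - k).toNat, Int.toNat_of_nonneg (by omega),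
    ← zpow_add₀ (by norm_num : (2 : ℝ) ≠ 0), ← zpow_natCast (2 : ℝ) L]
  congr 1
  ring

theorem mem_Iv_nonneg {k : ℤ} {m : ℕ} {x : ℝ} (hx : x ∈ Iv k m) : 0 ≤ x :=
  le_trans (by positivity) hx.1

theorem layer_eq_sum {L : ℕ} {k : ℤ} (hk : k ≤ L) {M : ℝ} {F : Fin 3 → ℝ → ℝ → ℝ}
    (hF : ∀ v, Nice L M (F v)) :
    layer k F = ∑ n₀ ∈ Finset.range (2 ^ ((L : ℤ) - k).toNat),
      ∑ n₁ ∈ Finset.range (2 ^ ((L : ℤ) - k).toNat), term k n₀ n₁ (n₀ ^^^ n₁) F := by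
  classical
  set P := 2 ^ ((L : ℤ) - k).toNat
  let e : ℕ × ℕ → {t : ℕ × ℕ × ℕ // Nat.xor (Nat.xor t.1 t.2.1) t.2.2 = 0} :=
    fun p => ⟨(p.1, p.2, p.1 ^^^ p.2), Nat.xor_self _⟩
  unfold layer
  rw [tsum_eq_sum (s := (Finset.range P ×ˢ Finset.range P).image e), Finset.sum_image,
    Finset.sum_product]
  · rintro ⟨a, b⟩ _ ⟨c, d⟩ _ h
    simp only [e, Subtype.mk.injEq, Prod.mk.injEq] at h
    simp [h.1, h.2.1]
  · rintro ⟨⟨a, b, c⟩, h⟩ hnot
    have hc : c = a ^^^ b := (Nat.xor_eq_zero_iff.1 (show (a ^^^ b) ^^^ c = 0 from h)).symm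
    have hab : P ≤ a ∨ P ≤ b := by
      by_contra hlt
      push Not at hlt
      apply hnot
      simp only [Finset.mem_image, Finset.mem_product, Finset.mem_range]
      exact ⟨(a, b), hlt, Subtype.ext (by simp [e, hc])⟩
    have key : ∀ m : ℕ, P ≤ m → ∀ x ∈ Iv k m, (2 : ℝ) ^ L ≤ x := by
      intro m hm x hx
      rw [← two_zpow_mul_pow hk]
      exact le_trans (mul_le_mul_of_nonneg_left (Nat.cast_le.2 hm) (by positivity)) hx.1
    have hz : ∀ x ∈ Iv k a, ∀ y ∈ Iv k b, F 0 x y = 0 := fun x hx y hy =>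
      (hF 0).supp x y (mem_Iv_nonneg hx) (mem_Iv_nonneg hy)
        (hab.imp (fun h => key a h x hx) (fun h => key b h y hy))
    unfold term
    rw [setIntegral_eq_zero_of_forall_eq_zero, mul_zero]
    intro x hx
    apply setIntegral_eq_zero_of_forall_eq_zero
    intro y hy
    apply setIntegral_eq_zero_of_forall_eq_zero
    intro z _
    simp [hz x hx y hy]

theorem layer_cellFun {n L : ℕ} {k : ℤ} (hk : k ≤ L) (hk' : 1 ≤ k + n) {M : ℝ}
    {A : Fin 3 → ℕ → ℕ → ℝ} (hb : ∀ v r c, |A v r c| ≤ M)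
    (hs : ∀ v r c, (2 ^ (n + L) ≤ r ∨ 2 ^ (n + L) ≤ c) → A v r c = 0) :
    layer k (fun v => cellFun n (A v)) =
      ((2 : ℝ) ^ n)⁻¹ ^ 2 * dlayer (n + L) (k + n).toNat A := by
  rw [layer_eq_sum hk (fun v => nice_cellFun (hb v) (hs v))]
  obtain ⟨j, hj⟩ : ∃ j : ℕ, (j : ℤ) = k + n := ⟨(k + n).toNat, Int.toNat_of_nonneg (by omega)⟩
  have hkj : k = (j : ℤ) - n := by omega
  have hP : ((L : ℤ) - k).toNat = n + L - j := by omega
  rw [hP, ← hj, Int.toNat_natCast, hkj]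
  simp only [dlayer, Finset.mul_sum]
  refine Finset.sum_congr rfl fun a _ => Finset.sum_congr rfl fun b _ => ?_
  rw [term_cellFun (by omega)]
  simp only [Finset.mul_sum]
  rfl

theorem abs_haar_le (k : ℤ) (m : ℕ) (x : ℝ) : |haar k m x| ≤ 1 := by
  unfold haar
  simp only [indicator_apply]
  split_ifs <;> simp

theorem measurable_haar (k : ℤ) (m : ℕ) : Measurable (haar k m) :=
  (measurable_const.indicator measurableSet_Ico).sub (measurable_const.indicator measurableSet_Ico)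

theorem abs_triple_sub {a b c a' b' c' M : ℝ} (hb : |b| ≤ M) (hc : |c| ≤ M) (ha' : |a'| ≤ M)
    (hb' : |b'| ≤ M) :
    |a * b * c - a' * b' * c'| ≤ M ^ 2 * (|a - a'| + |b - b'| + |c - c'|) := by
  have hM : 0 ≤ M := le_trans (abs_nonneg _) hb
  have e : a * b * c - a' * b' * c' =
      (a - a') * b * c + a' * (b - b') * c + a' * b' * (c - c') := by ring
  rw [e]
  refine le_trans (abs_add_three _ _ _) ?_
  simp only [abs_mul]
  have h1 : |a - a'| * |b| * |c| ≤ |a - a'| * M * M := by gcongr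
  have h2 : |a'| * |b - b'| * |c| ≤ M * |b - b'| * M := by gcongr
  have h3 : |a'| * |b'| * |c - c'| ≤ M * M * |c - c'| := by gcongr
  nlinarith

theorem integrable_bdd {α : Type*} {_ : MeasurableSpace α} {μ : Measure α} [IsFiniteMeasure μ]
    {g : α → ℝ} (hg : Measurable g) (C : ℝ) (hC : ∀ a, |g a| ≤ C) : Integrable g μ :=
  Integrable.of_bound hg.aestronglyMeasurable C
    (Filter.Eventually.of_forall fun a => by simpa using hC a)

theorem iterated_eq_prod {μ₀ μ₁ μ₂ : Measure ℝ} [IsFiniteMeasure μ₀] [IsFiniteMeasure μ₁]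
    [IsFiniteMeasure μ₂] {g : ℝ × ℝ × ℝ → ℝ} (hg : Measurable g) (C : ℝ) (hC : ∀ a, |g a| ≤ C) :
    ∫ p, g p ∂μ₀.prod (μ₁.prod μ₂) = ∫ x, ∫ y, ∫ z, g (x, y, z) ∂μ₂ ∂μ₁ ∂μ₀ := by
  rw [integral_prod _ (integrable_bdd hg C hC)]
  congr 1
  funext x
  exact integral_prod (fun q => g (x, q))
    (integrable_bdd (hg.comp measurable_prodMk_left) C fun a => hC _)

theorem abs_term_sub_le {L : ℕ} {M : ℝ} {F G : Fin 3 → ℝ → ℝ → ℝ} (hF : ∀ v, Nice L M (F v))
    (hG : ∀ v, Nice L M (G v)) (k : ℤ) (n₀ n₁ n₂ : ℕ) :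
    |term k n₀ n₁ n₂ F - term k n₀ n₁ n₂ G| ≤
      M ^ 2 * ∑ v, ∫ p in quad, |F v p.1 p.2 - G v p.1 p.2| := by
  have hM : 0 ≤ M := (hF 0).nonneg
  have hfin : ∀ m : ℕ, IsFiniteMeasure (volume.restrict (Iv k m)) := fun m =>
    isFiniteMeasure_restrict.2 (by simp [Iv])
  have hw : (0 : ℝ) < 2 ^ k := by positivity
  have hvol : ∀ m : ℕ, (volume.restrict (Iv k m)).real univ = (2 : ℝ) ^ k := by
    intro m
    simp only [Measure.real, Measure.restrict_apply_univ, Iv, Real.volume_Ico]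
    rw [ENNReal.toReal_ofReal (by nlinarith)]
    ring
  set μ := fun m : ℕ => volume.restrict (Iv k m) with hμ
  let Φ : (Fin 3 → ℝ → ℝ → ℝ) → ℝ × ℝ × ℝ → ℝ := fun H p =>
    H 0 p.1 p.2.1 * H 1 p.2.1 p.2.2 * H 2 p.2.2 p.1 *
      (haar k n₀ p.1 * haar k n₁ p.2.1 * haar k n₂ p.2.2)
  let δ : Fin 3 → ℝ → ℝ → ℝ := fun v x y => |F v x y - G v x y|
  have hδm : ∀ v, Measurable (Function.uncurry (δ v)) := fun v =>
    ((hF v).meas.sub (hG v).meas).abs
  have hδ0 : ∀ v x y, 0 ≤ δ v x y := fun v x y => abs_nonneg _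
  have hδb : ∀ v x y, |δ v x y| ≤ M + M := fun v x y => by
    rw [abs_of_nonneg (hδ0 v x y)]
    exact le_trans (abs_sub _ _) (add_le_add ((hF v).bound x y) ((hG v).bound x y))
  have m01 : Measurable fun p : ℝ × ℝ × ℝ => (p.1, p.2.1) :=
    measurable_fst.prodMk (measurable_fst.comp measurable_snd)
  have m12 : Measurable fun p : ℝ × ℝ × ℝ => (p.2.1, p.2.2) := measurable_snd
  have m20 : Measurable fun p : ℝ × ℝ × ℝ => (p.2.2, p.1) :=
    (measurable_snd.comp measurable_snd).prodMk measurable_fst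
  have hH : ∀ p : ℝ × ℝ × ℝ, |haar k n₀ p.1 * haar k n₁ p.2.1 * haar k n₂ p.2.2| ≤ 1 := by
    intro p
    rw [abs_mul, abs_mul]
    exact mul_le_one₀ (mul_le_one₀ (abs_haar_le ..) (abs_nonneg _) (abs_haar_le ..))
      (abs_nonneg _) (abs_haar_le ..)
  have hΦm : ∀ H : Fin 3 → ℝ → ℝ → ℝ, (∀ v, Nice L M (H v)) → Measurable (Φ H) := fun H hH' =>
    ((((hH' 0).meas.comp m01).mul ((hH' 1).meas.comp m12)).mul ((hH' 2).meas.comp m20)).mul
      ((((measurable_haar k n₀).comp measurable_fst).mul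
        ((measurable_haar k n₁).comp (measurable_fst.comp measurable_snd))).mul
        ((measurable_haar k n₂).comp (measurable_snd.comp measurable_snd)))
  have hΦb : ∀ H : Fin 3 → ℝ → ℝ → ℝ, (∀ v, Nice L M (H v)) → ∀ p, |Φ H p| ≤ M * M * M * 1 := by
    intro H hH' p
    simp only [Φ]
    rw [abs_mul]
    refine mul_le_mul ?_ (hH p) (abs_nonneg _) (by positivity)
    rw [abs_mul, abs_mul]
    gcongr <;> first | exact (hH' _).bound _ _
  let ν := (μ n₀).prod ((μ n₁).prod (μ n₂))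
  have eT : ∀ H : Fin 3 → ℝ → ℝ → ℝ, (∀ v, Nice L M (H v)) →
      term k n₀ n₁ n₂ H = ((2 : ℝ) ^ k)⁻¹ * ∫ p, Φ H p ∂ν := by
    intro H hH'
    rw [iterated_eq_prod (hΦm H hH') _ (hΦb H hH')]
    rfl
  rw [eT F hF, eT G hG, ← mul_sub, abs_mul, abs_of_pos (inv_pos.2 hw),
    inv_mul_le_iff₀ hw, ← integral_sub (integrable_bdd (hΦm F hF) _ (hΦb F hF))
      (integrable_bdd (hΦm G hG) _ (hΦb G hG))]
  have hDi : ∀ (v : Fin 3) (g : ℝ × ℝ × ℝ → ℝ × ℝ), Measurable g →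
      Integrable (fun p => δ v (g p).1 (g p).2) ν := fun v g hg =>
    integrable_bdd ((hδm v).comp hg) (M + M) fun p => hδb v _ _
  let D : Fin 3 → ℝ := fun v => ∫ p in quad, δ v p.1 p.2
  have hbox : ∀ (v : Fin 3) (a b : ℕ),
      ∫ x, ∫ y, δ v x y ∂μ b ∂μ a ≤ D v := by
    intro v a b
    have hi : Integrable (Function.uncurry (δ v)) ((μ a).prod (μ b)) :=
      integrable_bdd (hδm v) (M + M) fun p => hδb v _ _
    have h2 := integral_prod (Function.uncurry (δ v)) hi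
    simp only [Function.uncurry_apply_pair] at h2
    rw [← h2, hμ, Measure.prod_restrict, ← Measure.volume_eq_prod]
    have hq : IntegrableOn (fun p : ℝ × ℝ => δ v p.1 p.2) quad := by
      have hb := integrableOn_box (L := L) (hδm v) (fun p => hδb v p.1 p.2)
      refine hb.of_forall_sdiff_eq_zero (measurableSet_Ici.prod measurableSet_Ici) ?_
      rintro ⟨x, y⟩ ⟨⟨hx, hy⟩, hnot⟩
      have hor : (2 : ℝ) ^ L ≤ x ∨ (2 : ℝ) ^ L ≤ y := by
        by_contra hc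
        push Not at hc
        exact hnot ⟨⟨hx, hc.1⟩, ⟨hy, hc.2⟩⟩
      simp [δ, Function.uncurry, (hF v).supp x y hx hy hor, (hG v).supp x y hx hy hor]
    refine setIntegral_mono_set hq (Filter.Eventually.of_forall fun p => hδ0 v _ _)
      (LE.le.eventuallyLE ?_)
    exact prod_mono (fun x hx => mem_Iv_nonneg hx) (fun x hx => mem_Iv_nonneg hx)
  have h0 : ∫ p, δ 0 p.1 p.2.1 ∂ν ≤ 2 ^ k * D 0 := by
    rw [iterated_eq_prod (g := fun p => δ 0 p.1 p.2.1) ((hδm 0).comp m01) _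
      (fun p => hδb 0 _ _)]
    simp only [integral_const, smul_eq_mul, integral_const_mul]
    rw [hvol]
    exact mul_le_mul_of_nonneg_left (hbox 0 n₀ n₁) hw.le
  have h1 : ∫ p, δ 1 p.2.1 p.2.2 ∂ν ≤ 2 ^ k * D 1 := by
    rw [iterated_eq_prod (g := fun p => δ 1 p.2.1 p.2.2) ((hδm 1).comp m12) _
      (fun p => hδb 1 _ _)]
    simp only [integral_const, smul_eq_mul]
    rw [hvol]
    exact mul_le_mul_of_nonneg_left (hbox 1 n₁ n₂) hw.le
  have h2 : ∫ p, δ 2 p.2.2 p.1 ∂ν ≤ 2 ^ k * D 2 := by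
    rw [iterated_eq_prod (g := fun p => δ 2 p.2.2 p.1) ((hδm 2).comp m20) _
      (fun p => hδb 2 _ _)]
    simp only [integral_const, smul_eq_mul, integral_const_mul]
    rw [hvol, integral_integral_swap]
    · exact mul_le_mul_of_nonneg_left (hbox 2 n₂ n₀) hw.le
    · exact integrable_bdd ((hδm 2).comp measurable_swap) (M + M) fun p => hδb 2 _ _
  calc |∫ p, (Φ F p - Φ G p) ∂ν|
      ≤ ∫ p, |Φ F p - Φ G p| ∂ν := abs_integral_le_integral_abs
    _ ≤ ∫ p, M ^ 2 * (δ 0 p.1 p.2.1 + δ 1 p.2.1 p.2.2 + δ 2 p.2.2 p.1) ∂ν := by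
        refine integral_mono ?_ ?_ fun p => ?_
        · exact ((integrable_bdd (hΦm F hF) _ (hΦb F hF)).sub
            (integrable_bdd (hΦm G hG) _ (hΦb G hG))).abs
        · exact (((hDi 0 _ m01).add (hDi 1 _ m12)).add (hDi 2 _ m20)).const_mul _
        · simp only [Φ]
          rw [← sub_mul, abs_mul]
          refine le_trans (mul_le_of_le_one_right (abs_nonneg _) (hH p)) ?_
          exact abs_triple_sub ((hF 1).bound _ _) ((hF 2).bound _ _) ((hG 0).bound _ _)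
            ((hG 1).bound _ _)
    _ = M ^ 2 * (∫ p, δ 0 p.1 p.2.1 ∂ν + ∫ p, δ 1 p.2.1 p.2.2 ∂ν + ∫ p, δ 2 p.2.2 p.1 ∂ν) := by
        rw [integral_const_mul]
        congr 1
        exact (integral_add ((hDi 0 _ m01).add (hDi 1 _ m12)) (hDi 2 _ m20)).trans
          (congrArg (· + ∫ p, δ 2 p.2.2 p.1 ∂ν) (integral_add (hDi 0 _ m01) (hDi 1 _ m12)))
    _ ≤ M ^ 2 * (2 ^ k * D 0 + 2 ^ k * D 1 + 2 ^ k * D 2) := by gcongr
    _ = _ := by simp [Fin.sum_univ_three, D, δ]; ring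

theorem abs_layer_sub_le {L : ℕ} {k : ℤ} (hk : k ≤ L) {M : ℝ} {F G : Fin 3 → ℝ → ℝ → ℝ}
    (hF : ∀ v, Nice L M (F v)) (hG : ∀ v, Nice L M (G v)) :
    |layer k F - layer k G| ≤ ((2 ^ ((L : ℤ) - k).toNat : ℕ) : ℝ) ^ 2 *
      (M ^ 2 * ∑ v, ∫ p in quad, |F v p.1 p.2 - G v p.1 p.2|) := by
  rw [layer_eq_sum hk hF, layer_eq_sum hk hG, ← Finset.sum_sub_distrib]
  simp only [← Finset.sum_sub_distrib]
  refine le_trans (Finset.abs_sum_le_sum_abs _ _) ?_
  refine le_trans (Finset.sum_le_sum fun a _ => le_trans (Finset.abs_sum_le_sum_abs _ _)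
    (Finset.sum_le_sum fun b _ => abs_term_sub_le hF hG k a b _)) ?_
  simp only [Finset.sum_const, Finset.card_range, nsmul_eq_mul]
  exact le_of_eq (by ring)

theorem exists_cellFun_approx {L : ℕ} {M : ℝ} {f : ℝ → ℝ → ℝ} (hf : Nice L M f) {δ : ℝ}
    (hδ : 0 < δ) :
    ∃ n₁ : ℕ, ∀ n ≥ n₁, ∃ A : ℕ → ℕ → ℝ, (∀ r c, |A r c| ≤ M) ∧
      (∀ r c, (2 ^ (n + L) ≤ r ∨ 2 ^ (n + L) ≤ c) → A r c = 0) ∧
      ∫ p in quad, |f p.1 p.2 - cellFun n A p.1 p.2| ≤ δ := by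
  have hM := hf.nonneg
  set B := Ico (0 : ℝ) (2 ^ L) ×ˢ Ico (0 : ℝ) (2 ^ L) with hB
  have hBm : MeasurableSet B := measurableSet_Ico.prod measurableSet_Ico
  have hfB : IntegrableOn (Function.uncurry f) B := integrableOn_box hf.meas fun p => hf.bound _ _
  obtain ⟨g, -, hg, hgc, hgi⟩ :=
    (hfB.integrable_indicator hBm).exists_hasCompactSupport_integral_sub_le (half_pos hδ)
  have hvol : volume.real B = (2 : ℝ) ^ L * 2 ^ L := by
    simp [hB, Measure.real, Measure.volume_eq_prod, Measure.prod_prod, ENNReal.toReal_mul]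
  set η := δ / 2 / ((2 : ℝ) ^ L * 2 ^ L) with hη
  have hηp : 0 < η := by positivity
  have huc := ((isCompact_Icc.prod isCompact_Icc :
    IsCompact (Icc (0 : ℝ) (2 ^ L) ×ˢ Icc (0 : ℝ) (2 ^ L)))).uniformContinuousOn_of_continuous
      hgc.continuousOn
  rw [Metric.uniformContinuousOn_iff] at huc
  obtain ⟨d, hd, hd'⟩ := huc η hηp
  obtain ⟨n₁, hn₁⟩ := exists_pow_lt_of_lt_one hd (by norm_num : (1 / 2 : ℝ) < 1)
  refine ⟨n₁, fun n hn => ?_⟩
  let A : ℕ → ℕ → ℝ := fun r c => if r < 2 ^ (n + L) ∧ c < 2 ^ (n + L) then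
    max (-M) (min M (g ((r : ℝ) / 2 ^ n, (c : ℝ) / 2 ^ n))) else 0
  have hAb : ∀ r c, |A r c| ≤ M := by
    intro r c
    simp only [A]
    split
    · exact abs_le.2 ⟨le_max_left _ _, max_le (by linarith) (min_le_left _ _)⟩
    · simpa using hM
  have hAs : ∀ r c, (2 ^ (n + L) ≤ r ∨ 2 ^ (n + L) ≤ c) → A r c = 0 := by
    intro r c h
    simp only [A]
    rw [if_neg]
    omega
  refine ⟨A, hAb, hAs, ?_⟩
  have hC := nice_cellFun hAb hAs
  have hp : (0 : ℝ) < 2 ^ n := by positivity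
  have hstep : ((2 : ℝ) ^ n)⁻¹ < d := by
    refine lt_of_le_of_lt ?_ hn₁
    rw [div_pow, one_pow, one_div]
    gcongr
    norm_num
  have key : ∀ p ∈ B, |f p.1 p.2 - cellFun n A p.1 p.2| ≤
      ‖B.indicator (Function.uncurry f) p - g p‖ + η := by
    rintro ⟨x, y⟩ ⟨hx, hy⟩
    have aux : ∀ z ∈ Ico (0 : ℝ) (2 ^ L), ⌊z * 2 ^ n⌋₊ < 2 ^ (n + L) ∧
        (⌊z * 2 ^ n⌋₊ : ℝ) / 2 ^ n ∈ Icc (0 : ℝ) (2 ^ L) ∧
        dist z ((⌊z * 2 ^ n⌋₊ : ℝ) / 2 ^ n) < d := by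
      intro z hz
      have h0 : 0 ≤ z * 2 ^ n := mul_nonneg hz.1 hp.le
      have h1 := Nat.floor_le h0
      have h2 := Nat.lt_floor_add_one (z * 2 ^ n)
      have h3 : (⌊z * 2 ^ n⌋₊ : ℝ) / 2 ^ n ≤ z := (div_le_iff₀ hp).2 h1
      refine ⟨?_, ⟨by positivity, by linarith [hz.2]⟩, ?_⟩
      · rw [Nat.floor_lt h0]
        push_cast
        rw [pow_add, mul_comm (2 ^ n)]
        exact mul_lt_mul_of_pos_right hz.2 hp
      · rw [Real.dist_eq, abs_of_nonneg (by linarith)]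
        refine lt_of_le_of_lt ?_ hstep
        rw [inv_eq_one_div, le_div_iff₀ hp, sub_mul, div_mul_cancel₀ _ hp.ne']
        linarith
    obtain ⟨ax, bx, cx⟩ := aux x hx
    obtain ⟨ay, ay', cy⟩ := aux y hy
    have hclose := hd' (x, y) ⟨Ico_subset_Icc_self hx, Ico_subset_Icc_self hy⟩
      (_, _) ⟨bx, ay'⟩ (by rw [Prod.dist_eq]; exact max_lt cx cy)
    rw [Real.dist_eq] at hclose
    set G' := g ((⌊x * 2 ^ n⌋₊ : ℝ) / 2 ^ n, (⌊y * 2 ^ n⌋₊ : ℝ) / 2 ^ n)
    have hval : cellFun n A x y = max (-M) (min M G') := by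
      rw [cellFun, if_pos ⟨hx.1, hy.1⟩]
      simp only [A]
      rw [if_pos ⟨ax, ay⟩]
    rw [indicator_of_mem (show (x, y) ∈ B from ⟨hx, hy⟩), Function.uncurry_apply_pair,
      Real.norm_eq_abs, hval]
    have h1 : |f x y - max (-M) (min M G')| ≤ |f x y - G'| := by
      have := abs_le.1 (hf.bound x y)
      rcases le_total G' M with h | h
      · rw [min_eq_right h]
        rcases le_total (-M) G' with h' | h'
        · rw [max_eq_right h']
        · rw [max_eq_left h', abs_of_nonneg (by linarith), abs_of_nonneg (by linarith)]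
          linarith
      · rw [min_eq_left h, max_eq_right (by linarith), abs_of_nonpos (by linarith),
          abs_of_nonpos (by linarith)]
        linarith
    have h2 : |f x y - G'| ≤ |f x y - g (x, y)| + |g (x, y) - G'| := abs_sub_le _ _ _
    linarith
  rw [setIntegral_quad_eq_box (L := L) (g := fun p => |f p.1 p.2 - cellFun n A p.1 p.2|)
    (fun x y hx hy h => by simp [hf.supp x y hx hy h, hC.supp x y hx hy h])]
  have hgd : Integrable fun p => ‖B.indicator (Function.uncurry f) p - g p‖ :=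
    ((hfB.integrable_indicator hBm).sub hgi).norm
  have hη' : IntegrableOn (fun _ : ℝ × ℝ => η) B :=
    integrableOn_box measurable_const fun _ => le_refl |η|
  calc ∫ p in B, |f p.1 p.2 - cellFun n A p.1 p.2|
      ≤ ∫ p in B, (‖B.indicator (Function.uncurry f) p - g p‖ + η) := by
        refine setIntegral_mono_on ?_ (hgd.integrableOn.add hη') hBm key
        exact integrableOn_box ((hf.meas.sub hC.meas).abs) (M := M + M) fun p => by
          rw [abs_abs]; exact le_trans (abs_sub _ _) (add_le_add (hf.bound _ _) (hC.bound _ _))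
    _ = (∫ p in B, ‖B.indicator (Function.uncurry f) p - g p‖) + volume.real B * η := by
        rw [integral_add hgd.integrableOn hη', setIntegral_const, smul_eq_mul]
    _ ≤ δ / 2 + δ / 2 := by
        refine add_le_add (le_trans (setIntegral_le_integral hgd
          (Filter.Eventually.of_forall fun p => norm_nonneg _)) hg) (le_of_eq ?_)
        rw [hvol, hη]
        field_simp
    _ = δ := add_halves δ

theorem abs_cube_sub {a b M : ℝ} (ha : |a| ≤ M) (hb : |b| ≤ M) :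
    |a| ^ 3 ≤ |b| ^ 3 + 3 * M ^ 2 * |b - a| := by
  have h := abs_abs_sub_abs_le_abs_sub a b
  rw [abs_sub_comm a b] at h
  have h1 := abs_le.1 h
  have hM : 0 ≤ M := le_trans (abs_nonneg _) ha
  rcases le_total |a| |b| with hab | hab
  · have : |a| ^ 3 ≤ |b| ^ 3 := pow_le_pow_left₀ (abs_nonneg _) hab 3
    nlinarith [abs_nonneg (b - a), sq_nonneg M]
  · have hq : |a| ^ 2 + |a| * |b| + |b| ^ 2 ≤ 3 * M ^ 2 := by
      nlinarith [abs_nonneg a, abs_nonneg b]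
    nlinarith [abs_nonneg a, abs_nonneg b, abs_nonneg (b - a)]

theorem Nice.integrableOn_quad {L M f} (h : Nice L M f) :
    IntegrableOn (fun p : ℝ × ℝ => |f p.1 p.2| ^ 3) quad := by
  refine (integrableOn_box (L := L) (h.meas.abs.pow_const 3) (M := M ^ 3) fun p => ?_
    ).of_forall_sdiff_eq_zero (measurableSet_Ici.prod measurableSet_Ici) ?_
  · rw [abs_of_nonneg (by positivity)]
    exact pow_le_pow_left₀ (abs_nonneg _) (h.bound _ _) 3
  · rintro ⟨x, y⟩ ⟨⟨hx, hy⟩, hnot⟩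
    have hor : (2 : ℝ) ^ L ≤ x ∨ (2 : ℝ) ^ L ≤ y := by
      by_contra hc
      push Not at hc
      exact hnot ⟨⟨hx, hc.1⟩, ⟨hy, hc.2⟩⟩
    simp [Function.uncurry, h.supp x y hx hy hor]

theorem additive_bound {C : ℝ} (hC : 0 ≤ C) (h : DiscreteBound C) (S : Finset ℤ) (ε : ℤ → ℝ)
    (hε : ∀ k ∈ S, |ε k| ≤ 1) {L : ℕ} (hL : ∀ k ∈ S, k ≤ L) {M : ℝ}
    {F : Fin 3 → ℝ → ℝ → ℝ} (hF : ∀ v, Nice L M (F v)) :
    |∑ k ∈ S, ε k * layer k F| ≤ C * ∑ v, ∫ p in quad, |F v p.1 p.2| ^ 3 := by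
  have hM := (hF 0).nonneg
  set Z := (∑ k ∈ S, ((2 ^ ((L : ℤ) - k).toNat : ℕ) : ℝ) ^ 2 * (M ^ 2 * 3)) + C * (3 * (3 * M ^ 2))
    with hZdef
  have hZ : 0 ≤ Z := by positivity
  refine le_of_forall_pos_le_add fun η hη => ?_
  have hδ : 0 < η / (Z + 1) := by positivity
  set δ := η / (Z + 1) with hδdef
  choose N hN using fun v => exists_cellFun_approx (hF v) hδ
  set n := (Finset.univ.sup N) + S.sup (fun k => (1 - k).toNat) with hn
  have hnN : ∀ v, N v ≤ n := fun v =>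
    le_trans (Finset.le_sup (Finset.mem_univ v)) (Nat.le_add_right _ _)
  choose A hAb hAs hAd using fun v => hN v n (hnN v)
  let G : Fin 3 → ℝ → ℝ → ℝ := fun v => cellFun n (A v)
  have hG : ∀ v, Nice L M (G v) := fun v => nice_cellFun (hAb v) (hAs v)
  have hk1 : ∀ k ∈ S, 1 ≤ k + n := by
    intro k hk
    have : (1 - k).toNat ≤ S.sup (fun k => (1 - k).toNat) :=
      Finset.le_sup (f := fun k => (1 - k).toNat) hk
    omega
  set w := ((2 : ℝ) ^ n)⁻¹ ^ 2 with hw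
  have hw0 : 0 ≤ w := by positivity
  have hstep : |∑ k ∈ S, ε k * layer k G| ≤ C * ∑ v, ∫ p in quad, |G v p.1 p.2| ^ 3 := by
    have e : ∀ k ∈ S, layer k G = w * dlayer (n + L) (k + n).toNat A :=
      fun k hk => layer_cellFun (hL k hk) (hk1 k hk) hAb hAs
    calc |∑ k ∈ S, ε k * layer k G|
        ≤ ∑ k ∈ S, |ε k * layer k G| := Finset.abs_sum_le_sum_abs _ _
      _ ≤ ∑ k ∈ S, w * |dlayer (n + L) (k + n).toNat A| := by
          refine Finset.sum_le_sum fun k hk => ?_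
          rw [abs_mul, e k hk, abs_mul, abs_of_nonneg hw0]
          exact mul_le_of_le_one_left (by positivity) (hε k hk)
      _ = w * ∑ j ∈ S.image (fun k : ℤ => (k + (n : ℤ)).toNat), |dlayer (n + L) j A| := by
          rw [Finset.mul_sum, Finset.sum_image]
          intro a ha b hb hab
          simp only at hab
          have := hk1 a ha
          have := hk1 b hb
          omega
      _ ≤ w * ∑ j ∈ Finset.Icc 1 (n + L), |dlayer (n + L) j A| := by
          refine mul_le_mul_of_nonneg_left (Finset.sum_le_sum_of_subset_of_nonneg ?_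
            (fun _ _ _ => abs_nonneg _)) hw0
          intro j hj
          obtain ⟨k, hk, rfl⟩ := Finset.mem_image.1 hj
          have := hk1 k hk
          have := hL k hk
          rw [Finset.mem_Icc]
          omega
      _ ≤ w * (C * ∑ v, ∑ r ∈ Finset.range (2 ^ (n + L)), ∑ c ∈ Finset.range (2 ^ (n + L)),
            |A v r c| ^ 3) := mul_le_mul_of_nonneg_left (h (n + L) A) hw0
      _ = C * ∑ v, ∫ p in quad, |G v p.1 p.2| ^ 3 := by
          simp only [G, fun v => integral_cube_cellFun (hAb v) (hAs v), ← Finset.mul_sum]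
          ring
  have hd3 : ∑ v, ∫ p in quad, |F v p.1 p.2 - G v p.1 p.2| ≤ 3 * δ := by
    simpa using Finset.sum_le_sum (s := Finset.univ) fun v _ => hAd v
  have hdiff : |∑ k ∈ S, ε k * layer k F - ∑ k ∈ S, ε k * layer k G| ≤
      (∑ k ∈ S, ((2 ^ ((L : ℤ) - k).toNat : ℕ) : ℝ) ^ 2 * (M ^ 2 * 3)) * δ := by
    rw [← Finset.sum_sub_distrib, Finset.sum_mul]
    refine le_trans (Finset.abs_sum_le_sum_abs _ _) (Finset.sum_le_sum fun k hk => ?_)
    rw [← mul_sub, abs_mul]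
    refine le_trans (mul_le_of_le_one_left (abs_nonneg _) (hε k hk)) ?_
    refine le_trans (abs_layer_sub_le (hL k hk) hF hG) ?_
    rw [mul_assoc, mul_assoc (M ^ 2)]
    gcongr
  have hcube : ∀ v, ∫ p in quad, |G v p.1 p.2| ^ 3 ≤
      (∫ p in quad, |F v p.1 p.2| ^ 3) + 3 * M ^ 2 * δ := by
    intro v
    have hd : IntegrableOn (fun p : ℝ × ℝ => |F v p.1 p.2 - G v p.1 p.2|) quad := by
      refine (integrableOn_box (L := L) ((hF v).meas.sub (hG v).meas).abs (M := M + M) fun p => by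
        rw [abs_abs]; exact le_trans (abs_sub _ _) (add_le_add ((hF v).bound _ _)
          ((hG v).bound _ _))).of_forall_sdiff_eq_zero (measurableSet_Ici.prod measurableSet_Ici) ?_
      rintro ⟨x, y⟩ ⟨⟨hx, hy⟩, hnot⟩
      have hor : (2 : ℝ) ^ L ≤ x ∨ (2 : ℝ) ^ L ≤ y := by
        by_contra hc
        push Not at hc
        exact hnot ⟨⟨hx, hc.1⟩, ⟨hy, hc.2⟩⟩
      simp [Function.uncurry, (hF v).supp x y hx hy hor, (hG v).supp x y hx hy hor]
    calc ∫ p in quad, |G v p.1 p.2| ^ 3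
        ≤ ∫ p in quad, (|F v p.1 p.2| ^ 3 + 3 * M ^ 2 * |F v p.1 p.2 - G v p.1 p.2|) :=
          setIntegral_mono_on (hG v).integrableOn_quad
            ((hF v).integrableOn_quad.add (hd.const_mul _))
            (measurableSet_Ici.prod measurableSet_Ici)
            fun p _ => abs_cube_sub ((hG v).bound _ _) ((hF v).bound _ _)
      _ = (∫ p in quad, |F v p.1 p.2| ^ 3) +
            3 * M ^ 2 * ∫ p in quad, |F v p.1 p.2 - G v p.1 p.2| := by
          rw [integral_add (hF v).integrableOn_quad (hd.const_mul _), integral_const_mul]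
      _ ≤ _ := by gcongr; exact hAd v
  have hsum : ∑ v, ∫ p in quad, |G v p.1 p.2| ^ 3 ≤
      (∑ v, ∫ p in quad, |F v p.1 p.2| ^ 3) + 3 * (3 * M ^ 2 * δ) := by
    refine le_trans (Finset.sum_le_sum fun v _ => hcube v) ?_
    simp [Finset.sum_add_distrib]
  have hsum' := mul_le_mul_of_nonneg_left hsum hC
  have hfin : Z * δ ≤ η := by
    rw [hδdef, mul_div_assoc', div_le_iff₀ (by positivity)]
    nlinarith
  have e2 : Z * δ = (∑ k ∈ S, ((2 ^ ((L : ℤ) - k).toNat : ℕ) : ℝ) ^ 2 * (M ^ 2 * 3)) * δ +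
      C * (3 * (3 * M ^ 2 * δ)) := by rw [hZdef]; ring
  have := abs_sub_abs_le_abs_sub (∑ k ∈ S, ε k * layer k F) (∑ k ∈ S, ε k * layer k G)
  nlinarith

theorem layer_smul (k : ℤ) (c : Fin 3 → ℝ) (F : Fin 3 → ℝ → ℝ → ℝ) :
    layer k (fun v x y => c v * F v x y) = c 0 * c 1 * c 2 * layer k F := by
  unfold layer
  rw [← tsum_mul_left]
  congr 1
  funext t
  unfold term
  rw [mul_left_comm (c 0 * c 1 * c 2)]
  simp only [← integral_const_mul]
  congr 1
  funext x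
  congr 1
  funext y
  congr 1
  funext z
  ring

theorem dyadicBounded_of_discrete {C : ℝ} (h : DiscreteBound C) : DyadicBounded := by
  have hC0 : (0 : ℝ) ≤ max C 0 := le_max_right _ _
  have h' : DiscreteBound (max C 0) := fun N A => le_trans (h N A)
    (mul_le_mul_of_nonneg_right (le_max_left _ _) (by positivity))
  refine ⟨3 * max C 0, fun S ε hε F hm hb hs => ?_⟩
  choose Ms hMs using hb
  choose R hR using fun v => (hs v).isCompact.isBounded.exists_norm_le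
  obtain ⟨L₀, hL₀⟩ := pow_unbounded_of_one_lt (∑ v, |R v|) (by norm_num : (1 : ℝ) < 2)
  set L := L₀ + S.sup (fun k => k.toNat) with hLdef
  have hL : ∀ k ∈ S, k ≤ L := by
    intro k hk
    have : k.toNat ≤ S.sup (fun k => k.toNat) := Finset.le_sup (f := fun k => k.toNat) hk
    omega
  have hM : ∀ v x y, |F v x y| ≤ ∑ w, |Ms w| := fun v x y =>
    le_trans (le_trans (hMs v x y) (le_abs_self _))
      (Finset.single_le_sum (fun w _ => abs_nonneg (Ms w)) (Finset.mem_univ v))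
  have hsupp : ∀ v x y, 0 ≤ x → 0 ≤ y → ((2 : ℝ) ^ L ≤ x ∨ (2 : ℝ) ^ L ≤ y) → F v x y = 0 := by
    intro v x y hx hy hor
    by_contra hne
    have hmem : (x, y) ∈ tsupport (Function.uncurry (F v)) := subset_tsupport _ hne
    have h1 := hR v (x, y) hmem
    rw [Prod.norm_def, max_le_iff, Real.norm_of_nonneg hx, Real.norm_of_nonneg hy] at h1
    have h2 : R v ≤ ∑ w, |R w| := le_trans (le_abs_self _)
      (Finset.single_le_sum (fun w _ => abs_nonneg (R w)) (Finset.mem_univ v))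
    have h3 : (2 : ℝ) ^ L₀ ≤ 2 ^ L := pow_le_pow_right₀ (by norm_num) (by omega)
    rcases hor with h | h <;> linarith [h1.1, h1.2]
  have hI : ∀ v, 0 ≤ ∫ p in quad, |F v p.1 p.2| ^ 3 := fun v =>
    integral_nonneg fun p => by positivity
  have hnorm : ∀ v, 0 ≤ norm3 (F v) := fun v => Real.rpow_nonneg (hI v) _
  have hcube : ∀ v, norm3 (F v) ^ 3 = ∫ p in quad, |F v p.1 p.2| ^ 3 := by
    intro v
    rw [norm3]
    show ((∫ p in quad, |F v p.1 p.2| ^ 3) ^ ((1 : ℝ) / 3)) ^ 3 = _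
    rw [← Real.rpow_natCast _ 3, ← Real.rpow_mul (hI v)]
    norm_num
  have main : ∀ δ : ℝ, 0 < δ →
      |∑ k ∈ S, ε k * layer k F| ≤ 3 * max C 0 * ∏ v, (norm3 (F v) + δ) := by
    intro δ hδ
    set c : Fin 3 → ℝ := fun v => (norm3 (F v) + δ)⁻¹ with hc
    have hcp : ∀ v, 0 < c v := fun v => inv_pos.2 (by linarith [hnorm v])
    have hN : ∀ v, Nice L ((∑ w, c w) * ∑ w, |Ms w|) (fun x y => c v * F v x y) := by
      intro v
      refine ⟨(hm v).const_mul _, fun x y => ?_, fun x y hx hy hor => by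
        rw [hsupp v x y hx hy hor, mul_zero]⟩
      rw [abs_mul, abs_of_pos (hcp v)]
      exact mul_le_mul (Finset.single_le_sum (fun w _ => (hcp w).le) (Finset.mem_univ v))
        (hM v x y) (abs_nonneg _) (Finset.sum_nonneg fun w _ => (hcp w).le)
    have hb := additive_bound hC0 h' S ε hε hL hN
    have hle : ∑ v, ∫ p in quad, |c v * F v p.1 p.2| ^ 3 ≤ 3 := by
      refine le_trans (Finset.sum_le_sum (g := fun _ => (1 : ℝ)) fun v _ => ?_) (by simp)
      simp only [abs_mul, abs_of_pos (hcp v), mul_pow]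
      rw [integral_const_mul, ← hcube v, ← mul_pow]
      refine pow_le_one₀ (mul_nonneg (hcp v).le (hnorm v)) ?_
      rw [hc, inv_mul_le_iff₀ (by linarith [hnorm v])]
      linarith
    simp only [layer_smul] at hb
    have e : ∑ k ∈ S, ε k * (c 0 * c 1 * c 2 * layer k F) =
        (c 0 * c 1 * c 2) * ∑ k ∈ S, ε k * layer k F := by
      rw [Finset.mul_sum]; exact Finset.sum_congr rfl fun k _ => by ring
    have hpos : 0 < c 0 * c 1 * c 2 := mul_pos (mul_pos (hcp 0) (hcp 1)) (hcp 2)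
    rw [e, abs_mul, abs_of_pos hpos, mul_comm (c 0 * c 1 * c 2), ← le_div_iff₀ hpos] at hb
    refine le_trans hb (le_of_le_of_eq
      (div_le_div_of_nonneg_right (mul_le_mul_of_nonneg_left hle hC0) hpos.le) ?_)
    simp only [hc, Fin.prod_univ_three]
    have := hnorm 0
    have := hnorm 1
    have := hnorm 2
    field_simp
  have ht : Tendsto (fun δ : ℝ => 3 * max C 0 * ∏ v, (norm3 (F v) + δ)) (𝓝[>] 0)
      (𝓝 (3 * max C 0 * ∏ v, norm3 (F v))) := by
    apply tendsto_nhdsWithin_of_tendsto_nhds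
    have hct : Continuous fun δ : ℝ => 3 * max C 0 * ∏ v, (norm3 (F v) + δ) := by fun_prop
    simpa using hct.tendsto 0
  exact ge_of_tendsto ht (eventually_nhdsWithin_of_forall main)

end Vale.Agent.P075
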