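import Vale.Agent.P075.Trilinear

/-!
# P075: the one-block inequality
-/

noncomputable section

open Matrix Finset

namespace Vale.Agent.P075

variable {ι κ : Type*} [Fintype ι] [Fintype κ]

theorem klein {R S : Matrix ι ι ℝ} (hR : R.PosSemidef) (hS : S.PosSemidef) :
    3 * ((R * R - S * S) * S).trace ≤ 2 * (R * R * R).trace - 2 * (S * S * S).trace := by
  have hD : (R - S)ᵀ = R - S := by simp [transpose_sub, psd_symm hR, psd_symm hS]
  have h1 := trace_mul_nonneg (mul_self_psd hD) hR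
  have h2 := trace_mul_nonneg (mul_self_psd hD) hS
  have c1 : (R * S * R).trace = (R * R * S).trace := trace_mul_cycle _ _ _
  have c2 : (S * R * R).trace = (R * R * S).trace := by rw [trace_mul_cycle, trace_mul_cycle]
  have c3 : (S * R * S).trace = (S * S * R).trace := trace_mul_cycle _ _ _
  have c4 : (R * S * S).trace = (S * S * R).trace := by rw [trace_mul_cycle, trace_mul_cycle]
  simp only [Matrix.sub_mul, Matrix.mul_sub, trace_sub] at h1 h2 ⊢
  linarith

theorem tr32_tangent {W Z S : Matrix ι ι ℝ} (hZ : Z.PosSemidef) (hS : S.PosSemidef)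
    (hW : S * S = W) : 3 * ((Z - W) * S).trace ≤ 2 * tr32 Z - 2 * tr32 W := by
  obtain ⟨R, hR, rfl⟩ := exists_sqrt hZ
  rw [← hW, tr32_eq hR, tr32_eq hS]
  exact klein hR hS

/-- Convexity at a midpoint. -/
theorem tr32_mid {X Y D : Matrix ι ι ℝ} (hX : X.PosSemidef) (hY : Y.PosSemidef)
    (hD : D.PosSemidef) (h : (2 : ℝ) • D = X + Y) : 2 * tr32 D ≤ tr32 X + tr32 Y := by
  obtain ⟨S, hS, hSS⟩ := exists_sqrt hD
  have h1 := tr32_tangent hX hS hSS
  have h2 := tr32_tangent hY hS hSS
  have h3 : ((X - D) * S).trace + ((Y - D) * S).trace = 0 := by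
    have h0 : X - D + (Y - D) = X + Y - (2 : ℝ) • D := by rw [two_smul]; abel
    rw [← trace_add, ← Matrix.add_mul, h0, h, sub_self, Matrix.zero_mul, trace_zero]
  linarith

/-- The increment of `tr32` in a fixed positive direction is monotone. -/
theorem tr32_incr_mono {W Z P : Matrix ι ι ℝ} (hW : W.PosSemidef) (hP : P.PosSemidef)
    (h : (Z - W).PosSemidef) : tr32 (W + P) - tr32 W ≤ tr32 (Z + P) - tr32 Z := by
  have hZ : Z.PosSemidef := by simpa using hW.add h
  have hex : ∀ (V : Matrix ι ι ℝ), V.PosSemidef → ∀ s : ℝ, 0 ≤ s →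
      ∃ S : Matrix ι ι ℝ, S.PosSemidef ∧ S * S = V + s • P := fun V hV s hs =>
    exists_sqrt (hV.add (hP.smul hs))
  obtain ⟨S₀, hS₀, hS₀'⟩ := exists_sqrt hW
  obtain ⟨S₁, hS₁, hS₁'⟩ := exists_sqrt (hW.add hP)
  by_contra hlt
  push Not at hlt
  set δ := (tr32 (W + P) - tr32 W) - (tr32 (Z + P) - tr32 Z) with hδ
  have hδ0 : 0 < δ := by rw [hδ]; linarith
  set K := (P * S₁).trace - (P * S₀).trace with hK
  obtain ⟨n, hn⟩ := exists_nat_gt (3 * |K| / (2 * δ))
  have hn0 : (0 : ℝ) < n := lt_of_le_of_lt (by positivity) hn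
  have key : ∀ i : ℕ, ∀ A B : Matrix ι ι ℝ, A.PosSemidef → A * A = W + ((i : ℝ) / n) • P →
      B.PosSemidef → B * B = W + (((i + 1 : ℕ) : ℝ) / n) • P →
      2 * (tr32 (W + (((i + 1 : ℕ) : ℝ) / n) • P) - tr32 (W + ((i : ℝ) / n) • P)) -
        2 * (tr32 (Z + (((i + 1 : ℕ) : ℝ) / n) • P) - tr32 (Z + ((i : ℝ) / n) • P)) ≤
      3 / n * ((P * B).trace - (P * A).trace) := by
    intro i A B hA hAA hB hBB
    obtain ⟨C, hC, hCC⟩ := hex Z hZ ((i : ℝ) / n) (by positivity)
    have hd : (((i + 1 : ℕ) : ℝ) / n) • P = ((i : ℝ) / n) • P + ((1 : ℝ) / n) • P := by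
      rw [← add_smul]; congr 1; push_cast; ring
    have up := tr32_tangent (hW.add (hP.smul (show (0 : ℝ) ≤ (i : ℝ) / n by positivity))) hB hBB
    have low := tr32_tangent
      (hZ.add (hP.smul (show (0 : ℝ) ≤ ((i + 1 : ℕ) : ℝ) / n by positivity))) hC hCC
    have e1 : W + ((i : ℝ) / n) • P - (W + (((i + 1 : ℕ) : ℝ) / n) • P) =
        (-((1 : ℝ) / n)) • P := by rw [hd, neg_smul]; abel
    have e2 : Z + (((i + 1 : ℕ) : ℝ) / n) • P - (Z + ((i : ℝ) / n) • P) = ((1 : ℝ) / n) • P := by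
      rw [hd]; abel
    rw [e1, smul_mul, trace_smul, smul_eq_mul] at up
    rw [e2, smul_mul, trace_smul, smul_eq_mul] at low
    have hAC : (P * A).trace ≤ (P * C).trace := by
      refine trace_mul_mono hP (psd_sub_of_sq hC hA ?_)
      rw [hCC, hAA]
      simpa using h
    have h0 : (0 : ℝ) ≤ 1 / n := by positivity
    have h5 := mul_le_mul_of_nonneg_left hAC h0
    rw [show (3 : ℝ) / n = 3 * (1 / n) by ring]
    linarith
  choose S hS hSS using fun i : ℕ => hex W hW ((i : ℝ) / n) (by positivity)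
  have hsum := Finset.sum_le_sum (s := range n)
    (fun i _ => key i (S i) (S (i + 1)) (hS i) (hSS i) (hS _) (hSS _))
  rw [← mul_sum, sum_sub_distrib, ← mul_sum, ← mul_sum] at hsum
  rw [sum_range_sub (fun i : ℕ => tr32 (W + ((i : ℝ) / n) • P)),
    sum_range_sub (fun i : ℕ => tr32 (Z + ((i : ℝ) / n) • P)),
    sum_range_sub (fun i : ℕ => (P * S i).trace)] at hsum
  have e0 : S 0 = S₀ := psd_sqrt_unique (hS 0) hS₀ (by rw [hSS 0, hS₀']; simp)
  have e1 : S n = S₁ := psd_sqrt_unique (hS n) hS₁ (by rw [hSS n, hS₁', div_self hn0.ne', one_smul])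
  simp only [e0, e1, Nat.cast_zero, zero_div, zero_smul, add_zero, div_self hn0.ne', one_smul,
    ← hK] at hsum
  have : 3 / (n : ℝ) * K < 2 * δ := by
    rw [div_mul_eq_mul_div, div_lt_iff₀ hn0]
    rw [div_lt_iff₀ (by positivity)] at hn
    nlinarith [le_abs_self K]
  rw [hδ] at this
  linarith

variable [DecidableEq ι]

theorem Gam_mono_left {X X' Y : Matrix ι ι ℝ} (hX : X.PosSemidef) (hY : Y.PosSemidef)
    (h : (X' - X).PosSemidef) : Gam X Y ≤ Gam X' Y := by
  have := tr32_incr_mono hX hY h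
  rw [Gam, Gam]
  linarith

theorem Gam_comm (X Y : Matrix ι ι ℝ) : Gam X Y = Gam Y X := by
  rw [Gam, Gam, add_comm]; ring

theorem Gam_mono {X X' Y Y' : Matrix ι ι ℝ} (hX : X.PosSemidef) (hY : Y.PosSemidef)
    (hX' : X'.PosSemidef) (h : (X' - X).PosSemidef) (h' : (Y' - Y).PosSemidef) :
    Gam X Y ≤ Gam X' Y' := by
  refine (Gam_mono_left hX hY h).trans ?_
  rw [Gam_comm X' Y, Gam_comm X' Y']
  exact Gam_mono_left hY hX' h'

/-- Block-diagonal matrix on `Fin 2 × κ`. -/
def bd (D : Fin 2 → Matrix κ κ ℝ) : Matrix (Fin 2 × κ) (Fin 2 × κ) ℝ :=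
  Matrix.of fun p q => if p.1 = q.1 then D p.1 p.2 q.2 else 0

theorem bd_mul (A B : Fin 2 → Matrix κ κ ℝ) : bd A * bd B = bd fun j => A j * B j := by
  ext ⟨i, r⟩ ⟨l, s⟩
  fin_cases i <;> fin_cases l <;>
    simp [bd, Matrix.mul_apply, Fintype.sum_prod_type, Fin.sum_univ_two]

theorem trace_bd (A : Fin 2 → Matrix κ κ ℝ) : (bd A).trace = ∑ j, (A j).trace := by
  simp [bd, trace, Fintype.sum_prod_type]

theorem tr32_bd {D : Fin 2 → Matrix κ κ ℝ} (hD : ∀ j, (D j).PosSemidef) :
    tr32 (bd D) = ∑ j, tr32 (D j) := by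
  choose R hR hRR using fun j => exists_sqrt (hD j)
  have hb : (bd R).PosSemidef := by
    refine psd_of_qf ?_ fun x => ?_
    · ext ⟨i, r⟩ ⟨l, s⟩
      have := congrFun (congrFun (psd_symm (hR i)) r) s
      by_cases h : l = i
      · subst h; simp only [transpose_apply, bd, of_apply, if_true] at *; exact this
      · simp [bd, h, Ne.symm h]
    · have e : qf (bd R) x = ∑ j, qf (R j) fun r => x (j, r) := by
        simp [qf, bd, dotProduct, mulVec, Fintype.sum_prod_type, Fin.sum_univ_two]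
      rw [e]
      exact sum_nonneg fun j _ => qf_nonneg (hR j) _
  have : bd D = bd R * bd R := by
    rw [bd_mul]; congr 1; funext j; rw [hRR]
  rw [this, tr32_eq hb, bd_mul, bd_mul, trace_bd]
  refine sum_congr rfl fun j _ => ?_
  rw [← hRR j, tr32_eq (hR j)]

variable [DecidableEq κ]

theorem flipH_transpose : (flipH : Matrix (Fin 2 × κ) (Fin 2 × κ) ℝ)ᵀ = flipH :=
  diagonal_transpose _

theorem flipH_mul_self : (flipH : Matrix (Fin 2 × κ) (Fin 2 × κ) ℝ) * flipH = 1 := by
  rw [flipH, diagonal_mul_diagonal, ← diagonal_one]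
  congr 1; funext p; split_ifs <;> norm_num

theorem tr32_flip {Z : Matrix (Fin 2 × κ) (Fin 2 × κ) ℝ} (hZ : Z.PosSemidef) :
    tr32 (flipH * Z * flipH) = tr32 Z := by
  obtain ⟨R, hR, rfl⟩ := exists_sqrt hZ
  have hR' : (flipH * R * flipH).PosSemidef := by
    simpa [conjTranspose_eq_transpose_of_trivial, flipH_transpose] using
      hR.mul_mul_conjTranspose_same (flipH : Matrix (Fin 2 × κ) (Fin 2 × κ) ℝ)
  have e : ∀ A B : Matrix (Fin 2 × κ) (Fin 2 × κ) ℝ,
      flipH * A * flipH * (flipH * B * flipH) = flipH * (A * B) * flipH := by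
    intro A B
    calc _ = flipH * A * (flipH * flipH) * B * flipH := by simp only [Matrix.mul_assoc]
      _ = _ := by rw [flipH_mul_self, Matrix.mul_one]; simp only [Matrix.mul_assoc]
  rw [← e, tr32_eq hR', e, e, tr32_eq hR, trace_mul_cycle, flipH_mul_self, Matrix.one_mul]

/-- Averaging over the two signs reaches the children. -/
theorem gram_flip_add (a b : Fin 2 → Fin 2 → Matrix κ κ ℝ) :
    gram (par a) (par b) + flipH * gram (par a) (par b) * flipH =
      bd fun j => (2 : ℝ)⁻¹ • ∑ i, gram (a i j) (b j (i + j)) := by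
  have hsum : ∀ j k : Fin 2, (∑ i, (b j (i + j) * (b k (i + j))ᵀ)) =
      ∑ i, (b j i * (b k i)ᵀ) := fun j k =>
    Equiv.sum_comp (Equiv.addRight j) fun i => b j i * (b k i)ᵀ
  ext ⟨j, r⟩ ⟨l, s⟩
  rw [Matrix.add_apply]
  simp only [flipH, mul_diagonal, diagonal_mul]
  by_cases h : j = l
  · subst h
    have e := congrFun (congrFun (hsum j j) r) s
    simp only [Matrix.sum_apply, Matrix.mul_apply, transpose_apply] at e
    simp only [bd, of_apply, if_true, Matrix.smul_apply, Matrix.sum_apply, gram, Matrix.add_apply,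
      Matrix.mul_apply, transpose_apply, sum_add_distrib, smul_eq_mul, par, Fintype.sum_prod_type,
      div_mul_div_comm, ← sum_div]
    rw [e]
    fin_cases j <;> simp <;> ring
  · have hlj : ¬ l = j := fun h' => h h'.symm
    fin_cases j <;> fin_cases l <;> simp [bd] at h hlj ⊢

theorem gain_ge (a b : Fin 2 → Fin 2 → Matrix κ κ ℝ) :
    Gam (flipH * gram (par a) (par b) * flipH) (gram (par a) (par b)) ≤ 2 * gain a b := by
  set G := gram (par a) (par b) with hG
  have hGp : G.PosSemidef := gram_posSemidef _ _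
  set S : Fin 2 → Fin 2 → Matrix κ κ ℝ := fun i j => gram (a i j) (b j (i + j)) with hS
  have hSp : ∀ i j, (S i j).PosSemidef := fun i j => gram_posSemidef _ _
  set D : Fin 2 → Matrix κ κ ℝ := fun j => (2 : ℝ)⁻¹ • ∑ i, S i j with hD
  have hDp : ∀ j, (D j).PosSemidef := fun j => by
    simp only [hD, Fin.sum_univ_two]
    exact ((hSp 0 j).add (hSp 1 j)).smul (by norm_num)
  have hmid : ∀ j, 2 * tr32 (D j) ≤ tr32 (S 0 j) + tr32 (S 1 j) := fun j =>
    tr32_mid (hSp 0 j) (hSp 1 j) (hDp j) (by simp [hD, Fin.sum_univ_two])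
  rw [Gam, tr32_flip hGp, add_comm (flipH * G * flipH), hG, gram_flip_add, ← hG,
    tr32_bd (D := D) hDp, gain, ← hG]
  simp only [Fin.sum_univ_two]
  have m0 := hmid 0
  have m1 := hmid 1
  simp only [hS] at m0 m1
  linarith

/-- The one-block inequality. -/
theorem stepBound : StepBound 8 := by
  intro n a b c
  set A := par a * (flipH : Matrix (Fin 2 × Fin n) (Fin 2 × Fin n) ℝ) with hA
  set B := par b * (flipH : Matrix (Fin 2 × Fin n) (Fin 2 × Fin n) ℝ) with hB
  set C := par c * (flipH : Matrix (Fin 2 × Fin n) (Fin 2 × Fin n) ℝ) with hC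
  have e : (par a * flipH * par b * flipH * par c * flipH).trace = (A * B * C).trace := by
    simp only [hA, hB, hC, Matrix.mul_assoc]
  rw [e]
  refine (trace_three_le A B C).trans ?_
  have key : ∀ x y : Fin 2 → Fin 2 → Matrix (Fin n) (Fin n) ℝ,
      Gam ((par x * flipH)ᵀ * (par x * flipH)) ((par y * flipH) * (par y * flipH)ᵀ) ≤
        2 * gain x y := by
    intro x y
    refine le_trans ?_ (gain_ge x y)
    have e1 : (par x * flipH)ᵀ * (par x * flipH) = flipH * ((par x)ᵀ * par x) * flipH := by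
      rw [transpose_mul, flipH_transpose]; simp only [Matrix.mul_assoc]
    have e2 : (par y * flipH) * (par y * flipH)ᵀ = par y * (par y)ᵀ := by
      rw [transpose_mul, flipH_transpose, Matrix.mul_assoc, ← Matrix.mul_assoc flipH,
        flipH_mul_self, Matrix.one_mul]
    have p1 : ((par x)ᵀ * par x).PosSemidef := by
      simpa [conjTranspose_eq_transpose_of_trivial] using posSemidef_conjTranspose_mul_self (par x)
    have p2 : (par y * (par y)ᵀ).PosSemidef := by
      simpa [conjTranspose_eq_transpose_of_trivial] using posSemidef_self_mul_conjTranspose (par y)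
    have fl : ∀ {Z : Matrix (Fin 2 × Fin n) (Fin 2 × Fin n) ℝ}, Z.PosSemidef →
        (flipH * Z * flipH).PosSemidef := fun hZ => by
      simpa [conjTranspose_eq_transpose_of_trivial, flipH_transpose] using
        hZ.mul_mul_conjTranspose_same (flipH : Matrix (Fin 2 × Fin n) (Fin 2 × Fin n) ℝ)
    rw [e1, e2]
    refine Gam_mono (fl p1) p2 (fl (gram_posSemidef _ _)) ?_ ?_
    · rw [← Matrix.sub_mul, ← Matrix.mul_sub]
      refine fl ?_
      rw [gram, add_sub_cancel_left]
      exact p2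
    · rw [gram, add_sub_cancel_right]
      exact p1
  have k1 := key a b
  have k2 := key b c
  have k3 := key c a
  simp only [← hA, ← hB, ← hC] at k1 k2 k3
  linarith

end Vale.Agent.P075
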