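import Vale.Agent.P075.Tr32

/-!
# P075: telescoping over scales
-/

noncomputable section

open Matrix

namespace Vale.Agent.P075

/-- The four children of the block `(a, b)` of scale `j + 1`. -/
def child (j : ℕ) (X : ℕ → ℕ → ℝ) (a b : ℕ) :
    Fin 2 → Fin 2 → Matrix (Fin (2 ^ j)) (Fin (2 ^ j)) ℝ :=
  fun i l => blk j X (2 * a + i) (2 * b + l)

/-- The potential of the pair `(X, Y)` at scale `j`. -/
def pot (N j : ℕ) (X Y : ℕ → ℕ → ℝ) : ℝ :=
  4 ^ j * ∑ a ∈ Finset.range (2 ^ (N - j)), ∑ b ∈ Finset.range (2 ^ (N - j)),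
    tr32 (gram (blk j X a b) (blk j Y b (Nat.xor a b)))

/-- Position of a cell of a half inside the parent interval. -/
def halfEquiv (j : ℕ) : Fin 2 × Fin (2 ^ j) ≃ Fin (2 ^ (j + 1)) :=
  finProdFinEquiv.trans (finCongr (pow_succ' 2 j).symm)

theorem halfEquiv_val (j : ℕ) (p : Fin 2 × Fin (2 ^ j)) :
    (halfEquiv j p : ℕ) = 2 ^ j * (p.1 : ℕ) + (p.2 : ℕ) := by
  simp [halfEquiv, finProdFinEquiv, add_comm]

theorem blk_succ (j : ℕ) (X : ℕ → ℕ → ℝ) (a b : ℕ) :
    blk (j + 1) X a b =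
      Matrix.reindex (halfEquiv j) (halfEquiv j) (par (child j X a b)) := by
  ext r c
  obtain ⟨p, rfl⟩ := (halfEquiv j).surjective r
  obtain ⟨q, rfl⟩ := (halfEquiv j).surjective c
  simp only [blk, par, child, reindex_apply, submatrix_apply, Equiv.symm_apply_apply, of_apply,
    halfEquiv_val, pow_succ, div_div]
  congr 2 <;> ring

theorem cellSign_half (j : ℕ) (p : Fin 2 × Fin (2 ^ j)) :
    cellSign (j + 1) (halfEquiv j p) = if p.1 = 0 then 1 else -1 := by
  rw [cellSign, halfEquiv_val, pow_succ']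
  have hr := p.2.isLt
  obtain ⟨i, r⟩ := p
  fin_cases i <;> simp_all

theorem gram_reindex {κ κ' : Type*} [Fintype κ] [Fintype κ'] (e : κ ≃ κ') (A B : Matrix κ κ ℝ) :
    gram (Matrix.reindex e e A) (Matrix.reindex e e B) = Matrix.reindex e e (gram A B) := by
  simp only [gram, reindex_apply, transpose_submatrix, submatrix_mul_equiv]
  rfl

theorem tr32_gram_succ (j : ℕ) (X Y : ℕ → ℕ → ℝ) (a b c d : ℕ) :
    tr32 (gram (blk (j + 1) X a b) (blk (j + 1) Y c d)) =
      tr32 (gram (par (child j X a b)) (par (child j Y c d))) := by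
  rw [blk_succ, blk_succ, gram_reindex, tr32_reindex _ (gram_posSemidef _ _)]

theorem xor_child (a b : ℕ) (i l : Fin 2) :
    Nat.xor (2 * a + i) (2 * b + l) = 2 * Nat.xor a b + ((i + l : Fin 2) : ℕ) := by
  change (2 * a + (i : ℕ)) ^^^ (2 * b + (l : ℕ)) = 2 * (a ^^^ b) + _
  have hd := Nat.xor_div_two (a := 2 * a + (i : ℕ)) (b := 2 * b + (l : ℕ))
  have hm := Nat.xor_mod_two_eq (m := 2 * a + (i : ℕ)) (n := 2 * b + (l : ℕ))
  have hi := i.isLt
  have hl := l.isLt
  rw [show (2 * a + (i : ℕ)) / 2 = a by omega, show (2 * b + (l : ℕ)) / 2 = b by omega] at hd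
  rw [Fin.val_add]
  omega

theorem sum_range_two_mul (M : ℕ) (f : ℕ → ℝ) :
    ∑ a ∈ Finset.range (2 * M), f a = ∑ a ∈ Finset.range M, ∑ i : Fin 2, f (2 * a + i) := by
  induction M with
  | zero => simp
  | succ M ih =>
    rw [mul_add, mul_one, Finset.sum_range_succ, Finset.sum_range_succ, Finset.sum_range_succ, ih]
    simp [Fin.sum_univ_two, add_assoc]

theorem xor_xor_left' (a b : ℕ) : Nat.xor (Nat.xor a b) a = b := by
  change (a ^^^ b) ^^^ a = b
  rw [Nat.xor_comm a b, Nat.xor_assoc, Nat.xor_self, Nat.xor_zero]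

theorem xor_xor_right' (a b : ℕ) : Nat.xor b (Nat.xor a b) = a := by
  change b ^^^ (a ^^^ b) = a
  rw [Nat.xor_comm a b, ← Nat.xor_assoc, Nat.xor_self, Nat.zero_xor]

theorem sum_xor (k b : ℕ) (f : ℕ → ℝ) :
    ∑ a ∈ Finset.range (2 ^ k), f (Nat.xor a b) * (if b < 2 ^ k then 1 else 0) =
      (∑ a ∈ Finset.range (2 ^ k), f a) * (if b < 2 ^ k then 1 else 0) := by
  by_cases hb : b < 2 ^ k
  · simp only [if_pos hb, mul_one]
    refine Finset.sum_nbij' (fun a => Nat.xor a b) (fun a => Nat.xor a b) ?_ ?_ ?_ ?_ ?_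
    · intro a ha
      rw [Finset.mem_range] at ha ⊢
      exact Nat.xor_lt_two_pow ha hb
    · intro a ha
      rw [Finset.mem_range] at ha ⊢
      exact Nat.xor_lt_two_pow ha hb
    · intro a _
      change (a ^^^ b) ^^^ b = a
      rw [Nat.xor_assoc, Nat.xor_self, Nat.xor_zero]
    · intro a _
      change (a ^^^ b) ^^^ b = a
      rw [Nat.xor_assoc, Nat.xor_self, Nat.xor_zero]
    · intro a _; rfl
  · simp [if_neg hb]

theorem sum_plane_fst (k : ℕ) (f : ℕ → ℕ → ℝ) :
    ∑ a ∈ Finset.range (2 ^ k), ∑ b ∈ Finset.range (2 ^ k), f b (Nat.xor a b) =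
      ∑ b ∈ Finset.range (2 ^ k), ∑ c ∈ Finset.range (2 ^ k), f b c := by
  rw [Finset.sum_comm]
  refine Finset.sum_congr rfl fun b hb => ?_
  simpa [if_pos (Finset.mem_range.1 hb)] using sum_xor k b (f b)

theorem sum_plane_snd (k : ℕ) (f : ℕ → ℕ → ℝ) :
    ∑ a ∈ Finset.range (2 ^ k), ∑ b ∈ Finset.range (2 ^ k), f (Nat.xor a b) a =
      ∑ c ∈ Finset.range (2 ^ k), ∑ a ∈ Finset.range (2 ^ k), f c a := by
  rw [Finset.sum_comm (f := fun c a => f c a)]
  refine Finset.sum_congr rfl fun a ha => ?_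
  have h : ∀ b, Nat.xor a b = Nat.xor b a := fun b => Nat.xor_comm a b
  simp only [h]
  simpa [if_pos (Finset.mem_range.1 ha)] using sum_xor k a (fun c => f c a)

theorem pot_sub_succ {N j : ℕ} (hj : j + 1 ≤ N) (X Y : ℕ → ℕ → ℝ) :
    pot N j X Y - pot N (j + 1) X Y =
      4 ^ (j + 1) * ∑ a ∈ Finset.range (2 ^ (N - (j + 1))),
        ∑ b ∈ Finset.range (2 ^ (N - (j + 1))),
          gain (child j X a b) (child j Y b (Nat.xor a b)) := by
  have hM : 2 ^ (N - j) = 2 * 2 ^ (N - (j + 1)) := by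
    rw [← pow_succ']; congr 1; omega
  simp only [pot, gain, tr32_gram_succ, Finset.sum_sub_distrib, ← Finset.sum_div]
  rw [hM, sum_range_two_mul]
  have e : ∀ a : ℕ, ∀ i : Fin 2, ∑ b ∈ Finset.range (2 * 2 ^ (N - (j + 1))),
        tr32 (gram (blk j X (2 * a + i) b) (blk j Y b (Nat.xor (2 * a + i) b))) =
      ∑ b ∈ Finset.range (2 ^ (N - (j + 1))), ∑ l : Fin 2,
        tr32 (gram (child j X a b i l) (child j Y b (Nat.xor a b) l (i + l))) := by
    intro a i
    rw [sum_range_two_mul]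
    simp only [xor_child, child]
  simp only [e]
  have hswap : ∀ a : ℕ, ∑ i : Fin 2, ∑ b ∈ Finset.range (2 ^ (N - (j + 1))), ∑ l : Fin 2,
        tr32 (gram (child j X a b i l) (child j Y b (Nat.xor a b) l (i + l))) =
      ∑ b ∈ Finset.range (2 ^ (N - (j + 1))), ∑ i : Fin 2, ∑ l : Fin 2,
        tr32 (gram (child j X a b i l) (child j Y b (Nat.xor a b) l (i + l))) :=
    fun a => Finset.sum_comm
  simp only [hswap]
  rw [pow_succ]
  ring

theorem trace_signs {κ : Type*} [Fintype κ] [DecidableEq κ] (X Y Z : Matrix κ κ ℝ) (d : κ → ℝ) :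
    (X * diagonal d * Y * diagonal d * Z * diagonal d).trace =
      ∑ p, ∑ q, ∑ w, X p q * Y q w * Z w p * (d p * d q * d w) := by
  simp only [trace, diag, mul_diagonal]
  refine Finset.sum_congr rfl fun p _ => ?_
  rw [Matrix.mul_apply, Finset.sum_mul, Finset.sum_comm]
  refine Finset.sum_congr rfl fun w _ => ?_
  rw [mul_diagonal, Matrix.mul_apply, Finset.sum_mul, Finset.sum_mul, Finset.sum_mul]
  refine Finset.sum_congr rfl fun q _ => ?_
  rw [mul_diagonal]
  ring

theorem dlayer_succ (N j : ℕ) (A : Fin 3 → ℕ → ℕ → ℝ) :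
    dlayer N (j + 1) A = 4 ^ (j + 1) * ∑ a ∈ Finset.range (2 ^ (N - (j + 1))),
      ∑ b ∈ Finset.range (2 ^ (N - (j + 1))),
        (par (child j (A 0) a b) * flipH * par (child j (A 1) b (Nat.xor a b)) * flipH *
          par (child j (A 2) (Nat.xor a b) a) * flipH).trace := by
  rw [dlayer, Finset.mul_sum, Finset.mul_sum]
  refine Finset.sum_congr rfl fun a _ => ?_
  rw [Finset.mul_sum, Finset.mul_sum]
  refine Finset.sum_congr rfl fun b _ => ?_
  simp only [flipH, trace_signs]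
  simp only [← (halfEquiv j).sum_comp, Finset.mul_sum]
  refine Finset.sum_congr rfl fun p _ => Finset.sum_congr rfl fun q _ =>
    Finset.sum_congr rfl fun w _ => ?_
  have e : ∀ (X : ℕ → ℕ → ℝ) (u v : ℕ) (s t : Fin 2 × Fin (2 ^ j)),
      X (2 ^ (j + 1) * u + halfEquiv j s) (2 ^ (j + 1) * v + halfEquiv j t) =
        par (child j X u v) s t * 2 ^ (j + 1) := by
    intro X u v s t
    have := congrFun (congrFun (blk_succ j X u v) (halfEquiv j s)) (halfEquiv j t)
    simp only [reindex_apply, submatrix_apply, Equiv.symm_apply_apply, blk, of_apply] at this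
    rw [← this, div_mul_cancel₀]
    positivity
  rw [e (A 0), e (A 1), e (A 2), cellSign_half, cellSign_half, cellSign_half,
    show (4 : ℝ) = 2 ^ 2 by norm_num, ← pow_mul, mul_comm 2 (j + 1), pow_mul]
  field_simp

theorem pot_nonneg (N j : ℕ) (X Y : ℕ → ℕ → ℝ) : 0 ≤ pot N j X Y :=
  mul_nonneg (by positivity) (Finset.sum_nonneg fun _ _ =>
    Finset.sum_nonneg fun _ _ => tr32_nonneg _)

theorem cube_pair (x y : ℝ) :
    (x * x + y * y) * Real.sqrt (x * x + y * y) ≤ 2 * |x| ^ 3 + 2 * |y| ^ 3 := by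
  have hx := abs_nonneg x
  have hy := abs_nonneg y
  have hx2 : x * x = |x| * |x| := (abs_mul_abs_self x).symm
  have hy2 : y * y = |y| * |y| := (abs_mul_abs_self y).symm
  have hs : Real.sqrt (x * x + y * y) ≤ |x| + |y| := by
    rw [Real.sqrt_le_iff]
    exact ⟨by positivity, by rw [hx2, hy2]; nlinarith⟩
  calc (x * x + y * y) * Real.sqrt (x * x + y * y)
      ≤ (x * x + y * y) * (|x| + |y|) := by
        apply mul_le_mul_of_nonneg_left hs; nlinarith
    _ ≤ 2 * |x| ^ 3 + 2 * |y| ^ 3 := by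
        rw [hx2, hy2]
        nlinarith [mul_nonneg (add_nonneg hx hy) (sq_nonneg (|x| - |y|))]

theorem pot_zero_le (N : ℕ) (X Y : ℕ → ℕ → ℝ) :
    pot N 0 X Y ≤ 2 * (∑ r ∈ Finset.range (2 ^ N), ∑ c ∈ Finset.range (2 ^ N), |X r c| ^ 3) +
      2 * (∑ r ∈ Finset.range (2 ^ N), ∑ c ∈ Finset.range (2 ^ N), |Y r c| ^ 3) := by
  have : Unique (Fin (2 ^ 0)) := ⟨⟨⟨0, by norm_num⟩⟩, fun x => Fin.ext (by
    have := x.isLt
    show (x : ℕ) = 0
    simp only [pow_zero] at this
    omega)⟩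
  have e : ∀ a b, tr32 (gram (blk 0 X a b) (blk 0 Y b (Nat.xor a b))) ≤
      2 * |X a b| ^ 3 + 2 * |Y b (Nat.xor a b)| ^ 3 := by
    intro a b
    have hval : ∀ x y, gram (blk 0 X a b) (blk 0 Y b (Nat.xor a b)) x y =
        X a b * X a b + Y b (Nat.xor a b) * Y b (Nat.xor a b) := by
      intro x y
      simp [gram, Matrix.mul_apply, blk]
    have hu := tr32_unique (gram_posSemidef (blk 0 X a b) (blk 0 Y b (Nat.xor a b)))
    simp only [hval] at hu
    rw [hu]
    exact cube_pair _ _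
  rw [pot, pow_zero, one_mul, Nat.sub_zero]
  refine (Finset.sum_le_sum fun a _ => Finset.sum_le_sum fun b _ => e a b).trans (le_of_eq ?_)
  simp only [Finset.sum_add_distrib, ← Finset.mul_sum]
  rw [sum_plane_fst N (fun b c => |Y b c| ^ 3)]

theorem discreteBound_of_stepBound {C : ℝ} (hC : 0 ≤ C) (h : StepBound C) :
    DiscreteBound (4 * C) := by
  intro N A
  set T : ℕ → ℝ := fun j => pot N j (A 0) (A 1) + pot N j (A 1) (A 2) + pot N j (A 2) (A 0)
    with hT
  have step : ∀ j, j + 1 ≤ N → |dlayer N (j + 1) A| ≤ C * (T j - T (j + 1)) := by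
    intro j hj
    rw [dlayer_succ, abs_mul, abs_of_pos (by positivity : (0 : ℝ) < 4 ^ (j + 1))]
    set M := 2 ^ (N - (j + 1)) with hM
    calc _ ≤ (4 : ℝ) ^ (j + 1) * ∑ a ∈ Finset.range M, ∑ b ∈ Finset.range M,
          C * (gain (child j (A 0) a b) (child j (A 1) b (Nat.xor a b)) +
            gain (child j (A 1) b (Nat.xor a b)) (child j (A 2) (Nat.xor a b) a) +
            gain (child j (A 2) (Nat.xor a b) a) (child j (A 0) a b)) := by
          refine mul_le_mul_of_nonneg_left ?_ (by positivity)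
          refine (Finset.abs_sum_le_sum_abs _ _).trans (Finset.sum_le_sum fun a _ => ?_)
          exact (Finset.abs_sum_le_sum_abs _ _).trans
            (Finset.sum_le_sum fun b _ => h _ _ _ _)
      _ = C * (T j - T (j + 1)) := by
          have h1 := sum_plane_fst (N - (j + 1))
            (fun b c => gain (child j (A 1) b c) (child j (A 2) c (Nat.xor b c)))
          have h2 := sum_plane_snd (N - (j + 1))
            (fun c a => gain (child j (A 2) c a) (child j (A 0) a (Nat.xor c a)))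
          simp only [xor_xor_right', xor_xor_left'] at h1 h2
          have e : T j - T (j + 1) = (pot N j (A 0) (A 1) - pot N (j + 1) (A 0) (A 1)) +
              (pot N j (A 1) (A 2) - pot N (j + 1) (A 1) (A 2)) +
              (pot N j (A 2) (A 0) - pot N (j + 1) (A 2) (A 0)) := by
            simp only [hT]; ring
          rw [e, pot_sub_succ hj, pot_sub_succ hj, pot_sub_succ hj, hM, ← h1, ← h2]
          simp only [mul_add, Finset.sum_add_distrib, ← Finset.mul_sum]
          ring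
  have tele : ∀ n, n ≤ N → ∑ j ∈ Finset.Icc 1 n, |dlayer N j A| ≤ C * (T 0 - T n) := by
    intro n
    induction n with
    | zero => intro _; simp
    | succ n ih =>
      intro hn
      rw [Finset.sum_Icc_succ_top (by omega)]
      have := ih (by omega)
      have := step n hn
      linarith
  have hN : 0 ≤ T N := by
    have := pot_nonneg N N (A 0) (A 1)
    have := pot_nonneg N N (A 1) (A 2)
    have := pot_nonneg N N (A 2) (A 0)
    simp only [hT]; linarith
  have h0 : T 0 ≤ 4 * ∑ v, ∑ r ∈ Finset.range (2 ^ N), ∑ c ∈ Finset.range (2 ^ N),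
      |A v r c| ^ 3 := by
    have := pot_zero_le N (A 0) (A 1)
    have := pot_zero_le N (A 1) (A 2)
    have := pot_zero_le N (A 2) (A 0)
    simp only [hT, Fin.sum_univ_three]; linarith
  calc _ ≤ C * (T 0 - T N) := tele N le_rfl
    _ ≤ C * (4 * ∑ v, ∑ r ∈ Finset.range (2 ^ N), ∑ c ∈ Finset.range (2 ^ N), |A v r c| ^ 3) :=
        mul_le_mul_of_nonneg_left (by linarith) hC
    _ = _ := by ring

end Vale.Agent.P075
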