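import Vale.Agent.P075.Defs
import Vale.Agent.P075.Psd

/-!
# P075: positive square roots of real matrices and `tr32`
-/

noncomputable section

open Matrix

namespace Vale.Agent.P075

variable {ι ι' : Type*} [Fintype ι] [Fintype ι']

/-- Loewner monotonicity of the square root. -/
theorem posSemidef_sub_of_sq {R S : Matrix ι ι ℝ} (hR : R.PosSemidef) (hS : S.PosSemidef)
    (h : (R * R - S * S).PosSemidef) : (R - S).PosSemidef :=
  psd_sub_of_sq hR hS h

theorem exists_sqrt {Z : Matrix ι ι ℝ} (hZ : Z.PosSemidef) :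
    ∃ R : Matrix ι ι ℝ, R.PosSemidef ∧ R * R = Z :=
  psd_exists_sqrt hZ

theorem tr32_eq {R : Matrix ι ι ℝ} (hR : R.PosSemidef) : tr32 (R * R) = (R * R * R).trace := by
  have hex : ∃ S : Matrix ι ι ℝ, S.PosSemidef ∧ S * S = R * R := ⟨R, hR, rfl⟩
  rw [tr32, dif_pos hex]
  rw [psd_sqrt_unique hex.choose_spec.1 hR hex.choose_spec.2]

theorem tr32_nonneg (Z : Matrix ι ι ℝ) : 0 ≤ tr32 Z := by
  rw [tr32]
  split_ifs with h
  · have h1 := h.choose_spec.1
    have h2 := trace_mul_nonneg (mul_self_psd (psd_symm h1)) h1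
    exact h2
  · exact le_rfl

theorem gram_posSemidef (A B : Matrix ι ι ℝ) : (gram A B).PosSemidef := by
  have h1 := posSemidef_conjTranspose_mul_self A
  have h2 := posSemidef_self_mul_conjTranspose B
  simp only [conjTranspose_eq_transpose_of_trivial] at h1 h2
  exact h1.add h2

/-- Invariance under renaming the index. -/
theorem tr32_reindex (e : ι ≃ ι') {Z : Matrix ι ι ℝ} (hZ : Z.PosSemidef) :
    tr32 (Matrix.reindex e e Z) = tr32 Z := by
  obtain ⟨R, hR, rfl⟩ := exists_sqrt hZ
  have h : Matrix.reindex e e (R * R) = R.submatrix e.symm e.symm * R.submatrix e.symm e.symm := by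
    rw [submatrix_mul_equiv]; rfl
  rw [h, tr32_eq (hR.submatrix _), tr32_eq hR, submatrix_mul_equiv, submatrix_mul_equiv]
  exact Equiv.sum_comp e.symm fun i => (R * R * R) i i

/-- The `1 × 1` case. -/
theorem tr32_unique [Unique ι] {Z : Matrix ι ι ℝ} (hZ : Z.PosSemidef) :
    tr32 Z = Z default default * Real.sqrt (Z default default) := by
  obtain ⟨R, hR, rfl⟩ := exists_sqrt hZ
  rw [tr32_eq hR]
  have hd : 0 ≤ R default default := hR.diag_nonneg
  simp [trace, Matrix.mul_apply, Real.sqrt_mul_self hd]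

end Vale.Agent.P075
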