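import Vale.Agent.P075.Pair

/-!
# P075: trace of a triple product
-/

noncomputable section

open Matrix Finset

namespace Vale.Agent.P075

variable {ι : Type*} [Fintype ι] [DecidableEq ι]

theorem dot_combo_le (V W : Sys ι) (α β : ι → ℝ) :
    |∑ q, ∑ r, α q * β r * (V.e q ⬝ᵥ W.e r)| ≤ ((∑ q, α q ^ 2) + ∑ r, β r ^ 2) / 2 := by
  have h1 := V.norm_sum_sq α univ
  have h2 := W.norm_sum_sq β univ
  set y := ∑ q, α q • V.e q with hy
  set z := ∑ r, β r • W.e r with hz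
  have h : ∑ q, ∑ r, α q * β r * (V.e q ⬝ᵥ W.e r) = y ⬝ᵥ z := by
    rw [hy, sum_dotProduct]
    refine sum_congr rfl fun q _ => ?_
    rw [hz, dotProduct_sum]
    refine sum_congr rfl fun r _ => ?_
    simp only [smul_dotProduct, dotProduct_smul, smul_eq_mul]; ring
  have a1 := dot_self_nonneg (y - z)
  have a2 := dot_self_nonneg (y + z)
  simp only [sub_dotProduct, dotProduct_sub, dotProduct_comm z y] at a1
  simp only [add_dotProduct, dotProduct_add, dotProduct_comm z y] at a2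
  rw [h, abs_le]
  constructor <;> linarith

/-- One of the three parts of the triple sum: the first weight is the largest. -/
theorem case_le (V₁ U₂ V₂ U₃ V₃ U₁ : Sys ι) (h11 : U₁.a = V₁.a) (h22 : U₂.a = V₂.a)
    (h33 : U₃.a = V₃.a) (s t : ι → ι → Prop) [DecidableRel s] [DecidableRel t]
    (hs : ∀ p q, s p q → U₂.a q ≤ V₁.a p) (ht : ∀ p r, t p r → V₃.a r ≤ U₁.a p) :
    |∑ p, ∑ q, ∑ r, if s p q ∧ t p r then V₁.a p * V₂.a q * U₃.a r *
      ((V₁.e p ⬝ᵥ U₂.e q) * (V₂.e q ⬝ᵥ U₃.e r) * (V₃.e r ⬝ᵥ U₁.e p)) else 0| ≤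
      (pairK V₁ U₂ + pairK V₃ U₁) / 2 := by
  refine le_trans (abs_sum_le_sum_abs _ _) ?_
  have hd1 := domK_le_pairK V₁ U₂
  have hd2 := domK_le_pairK U₁ V₃
  rw [pairK_comm U₁ V₃] at hd2
  refine le_trans ?_ (div_le_div_of_nonneg_right (add_le_add hd1 hd2) (by norm_num))
  rw [domK, domK, ← sum_add_distrib, sum_div]
  refine sum_le_sum fun p _ => ?_
  set a := V₁.a p with ha
  set α : ι → ℝ := fun q => if s p q then V₂.a q * (V₁.e p ⬝ᵥ U₂.e q) else 0 with hα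
  set β : ι → ℝ := fun r => if t p r then U₃.a r * (V₃.e r ⬝ᵥ U₁.e p) else 0 with hβ
  have e : (∑ q, ∑ r, if s p q ∧ t p r then a * V₂.a q * U₃.a r *
      ((V₁.e p ⬝ᵥ U₂.e q) * (V₂.e q ⬝ᵥ U₃.e r) * (V₃.e r ⬝ᵥ U₁.e p)) else 0) =
      a * ∑ q, ∑ r, α q * β r * (V₂.e q ⬝ᵥ U₃.e r) := by
    rw [mul_sum]
    refine sum_congr rfl fun q _ => ?_
    rw [mul_sum]
    refine sum_congr rfl fun r _ => ?_
    simp only [hα, hβ]
    by_cases hq : s p q <;> by_cases hr : t p r <;> simp [hq, hr]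
    ring
  rw [e, abs_mul, abs_of_nonneg (V₁.nonneg p)]
  refine le_trans (mul_le_mul_of_nonneg_left (dot_combo_le V₂ U₃ α β) (V₁.nonneg p)) ?_
  rw [mul_div_assoc', mul_add]
  refine div_le_div_of_nonneg_right (add_le_add ?_ ?_) (by norm_num)
  · rw [mul_sum]
    refine sum_le_sum fun q _ => ?_
    have := U₂.nonneg q
    have := V₁.nonneg p
    simp only [hα]
    by_cases hq : s p q
    · rw [if_pos hq, if_pos (hs p q hq), h22]
      exact le_of_eq (by ring)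
    · rw [if_neg hq]
      split_ifs
      · simp; positivity
      · simp
  · rw [mul_sum]
    refine sum_le_sum fun r _ => ?_
    have := V₃.nonneg r
    have := U₁.nonneg p
    simp only [hβ, h11]
    by_cases hr : t p r
    · rw [if_pos hr, if_pos (by rw [← h11]; exact ht p r hr), h33, dotProduct_comm]
      exact le_of_eq (by ring)
    · rw [if_neg hr]
      split_ifs
      · have := V₁.nonneg p
        simp; positivity
      · simp

/-- The trilinear inequality. -/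
theorem trace_three_le (A B C : Matrix ι ι ℝ) :
    |(A * B * C).trace| ≤ 4 * (Gam (Aᵀ * A) (B * Bᵀ) + Gam (Bᵀ * B) (C * Cᵀ) +
      Gam (Cᵀ * C) (A * Aᵀ)) := by
  obtain ⟨U₁, V₁, h1, rfl⟩ := exists_systems A
  obtain ⟨U₂, V₂, h2, rfl⟩ := exists_systems B
  obtain ⟨U₃, V₃, h3, rfl⟩ := exists_systems C
  rw [sys_transpose_mul h1, sys_transpose_mul h2, sys_transpose_mul h3, sys_mul_transpose h1,
    sys_mul_transpose h2, sys_mul_transpose h3]
  have k1 := pairK_le V₁ U₂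
  have k2 := pairK_le V₂ U₃
  have k3 := pairK_le V₃ U₁
  set T : ι → ι → ι → ℝ := fun p q r => V₁.a p * V₂.a q * V₃.a r *
      ((V₁.e p ⬝ᵥ U₂.e q) * (V₂.e q ⬝ᵥ U₃.e r) * (V₃.e r ⬝ᵥ U₁.e p)) with hT
  have e : ((∑ p, U₁.a p • vecMulVec (U₁.e p) (V₁.e p)) *
      (∑ p, U₂.a p • vecMulVec (U₂.e p) (V₂.e p)) *
      (∑ p, U₃.a p • vecMulVec (U₃.e p) (V₃.e p))).trace = ∑ p, ∑ q, ∑ r, T p q r := by
    simp only [Finset.sum_mul]
    rw [trace_sum]
    refine sum_congr rfl fun p _ => ?_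
    simp only [Finset.mul_sum, Finset.sum_mul, trace_sum]
    rw [sum_comm]
    refine sum_congr rfl fun q _ => sum_congr rfl fun r _ => ?_
    rw [smul_mul_smul_comm, vecMulVec_mul_vecMulVec, smul_mul_smul_comm, vecMulVec_mul_vecMulVec]
    simp only [trace_smul, trace_vecMulVec, smul_dotProduct, smul_eq_mul,
      dotProduct_smul, vecMul_smul, hT, h1, h2, h3]
    rw [dotProduct_comm (U₁.e p) (V₃.e r)]
  have c1 := case_le V₁ U₂ V₂ U₃ V₃ U₁ h1 h2 h3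
    (fun p q => V₂.a q ≤ V₁.a p) (fun p r => V₃.a r ≤ V₁.a p)
    (fun p q h => by rw [h2]; exact h) (fun p r h => by rw [h1]; exact h)
  have c2 := case_le V₂ U₃ V₃ U₁ V₁ U₂ h2 h3 h1
    (fun q r => V₃.a r ≤ V₂.a q) (fun q p => V₁.a p < V₂.a q)
    (fun q r h => by rw [h3]; exact h) (fun q p h => by rw [h2]; exact h.le)
  have c3 := case_le V₃ U₁ V₁ U₂ V₂ U₃ h3 h1 h2
    (fun r p => V₁.a p < V₃.a r) (fun r q => V₂.a q < V₃.a r)
    (fun r p h => by rw [h1]; exact h.le) (fun r q h => by rw [h3]; exact h.le)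
  have split : ∀ p q r, T p q r =
      (if V₂.a q ≤ V₁.a p ∧ V₃.a r ≤ V₁.a p then T p q r else 0) +
      (if V₃.a r ≤ V₂.a q ∧ V₁.a p < V₂.a q then T p q r else 0) +
      (if V₁.a p < V₃.a r ∧ V₂.a q < V₃.a r then T p q r else 0) := by
    intro p q r
    by_cases hA : V₂.a q ≤ V₁.a p ∧ V₃.a r ≤ V₁.a p
    · rw [if_pos hA, if_neg (fun h => not_lt.2 hA.1 h.2), if_neg (fun h => not_lt.2 hA.2 h.1)]
      ring
    · rw [if_neg hA]
      by_cases hs : V₃.a r ≤ V₂.a q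
      · have h' : V₁.a p < V₂.a q := by
          by_contra h; push Not at h; exact hA ⟨h, hs.trans h⟩
        rw [if_pos ⟨hs, h'⟩, if_neg (fun h => not_lt.2 hs h.2)]
        ring
      · push Not at hs
        have h' : V₁.a p < V₃.a r := by
          by_contra h; push Not at h; exact hA ⟨hs.le.trans h, h⟩
        rw [if_neg (fun h => not_lt.2 h.1 hs), if_pos ⟨h', hs⟩]
        ring
  have s2 : (∑ p, ∑ q, ∑ r, if V₃.a r ≤ V₂.a q ∧ V₁.a p < V₂.a q then T p q r else 0) =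
      ∑ q, ∑ r, ∑ p, if V₃.a r ≤ V₂.a q ∧ V₁.a p < V₂.a q then V₂.a q * V₃.a r * U₁.a p *
        ((V₂.e q ⬝ᵥ U₃.e r) * (V₃.e r ⬝ᵥ U₁.e p) * (V₁.e p ⬝ᵥ U₂.e q)) else 0 := by
    rw [sum_comm]
    refine sum_congr rfl fun q _ => ?_
    rw [sum_comm]
    refine sum_congr rfl fun r _ => sum_congr rfl fun p _ => ?_
    simp only [hT, h1]
    split_ifs <;> ring
  have s3 : (∑ p, ∑ q, ∑ r, if V₁.a p < V₃.a r ∧ V₂.a q < V₃.a r then T p q r else 0) =
      ∑ r, ∑ p, ∑ q, if V₁.a p < V₃.a r ∧ V₂.a q < V₃.a r then V₃.a r * V₁.a p * U₂.a q *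
        ((V₃.e r ⬝ᵥ U₁.e p) * (V₁.e p ⬝ᵥ U₂.e q) * (V₂.e q ⬝ᵥ U₃.e r)) else 0 := by
    conv_rhs => rw [sum_comm]
    refine sum_congr rfl fun p _ => ?_
    rw [sum_comm]
    refine sum_congr rfl fun r _ => sum_congr rfl fun q _ => ?_
    simp only [hT, h2]
    split_ifs <;> ring
  have s1 : (∑ p, ∑ q, ∑ r, if V₂.a q ≤ V₁.a p ∧ V₃.a r ≤ V₁.a p then T p q r else 0) =
      ∑ p, ∑ q, ∑ r, if V₂.a q ≤ V₁.a p ∧ V₃.a r ≤ V₁.a p then V₁.a p * V₂.a q * U₃.a r *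
        ((V₁.e p ⬝ᵥ U₂.e q) * (V₂.e q ⬝ᵥ U₃.e r) * (V₃.e r ⬝ᵥ U₁.e p)) else 0 := by
    simp only [hT, h3]
  rw [e, show (∑ p, ∑ q, ∑ r, T p q r) =
      (∑ p, ∑ q, ∑ r, if V₂.a q ≤ V₁.a p ∧ V₃.a r ≤ V₁.a p then T p q r else 0) +
      (∑ p, ∑ q, ∑ r, if V₃.a r ≤ V₂.a q ∧ V₁.a p < V₂.a q then T p q r else 0) +
      (∑ p, ∑ q, ∑ r, if V₁.a p < V₃.a r ∧ V₂.a q < V₃.a r then T p q r else 0) by
    simp only [← sum_add_distrib]
    exact sum_congr rfl fun p _ => sum_congr rfl fun q _ => sum_congr rfl fun r _ => split p q r,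
    s1, s2, s3]
  refine le_trans (abs_add_three _ _ _) ?_
  linarith

end Vale.Agent.P075
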